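import Vale.Agent.P078.Colour

/-!
# Second moments of random choices, for vectors
-/

namespace Vale.Agent.P078.General

open ComplexInnerProductSpace
open Finset

universe u

variable {E : Type u} [NormedAddCommGroup E] [InnerProductSpace ℂ E]

lemma norm_sq_sum_smul {ι : Type*} (s : Finset ι) (a : ι → ℝ) (z : ι → E) :
    ‖∑ p ∈ s, (a p : ℂ) • z p‖ ^ 2
      = ∑ p ∈ s, ∑ q ∈ s, a p * a q * (⟪z p, z q⟫).re := by
  rw [@norm_sq_eq_re_inner ℂ, sum_inner, map_sum]
  refine Finset.sum_congr rfl (fun p _ => ?_)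
  rw [inner_sum, map_sum]
  refine Finset.sum_congr rfl (fun q _ => ?_)
  rw [inner_smul_left, inner_smul_right, Complex.conj_ofReal, RCLike.re_to_complex, ← mul_assoc,
    ← Complex.ofReal_mul, Complex.re_ofReal_mul]

lemma sum_sq_norm_sameColour_vec {N r : ℕ} [NeZero r] (z : Fin N × Fin N → E) :
    ∑ c : Fin N → Fin r, ‖∑ p, (sameColour c p : ℂ) • z p‖ ^ 2
      ≤ (Fintype.card (Fin N → Fin r) : ℝ) * (2 * ∑ p, ‖z p‖ ^ 2) := by
  classical
  set C : ℝ := (Fintype.card (Fin N → Fin r) : ℝ) with hC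
  have hcs : ∀ p q, |(⟪z p, z q⟫).re| ≤ (‖z p‖ ^ 2 + ‖z q‖ ^ 2) / 2 := by
    intro p q
    refine (Complex.abs_re_le_norm _).trans ((norm_inner_le_norm _ _).trans ?_)
    nlinarith [sq_nonneg (‖z p‖ - ‖z q‖)]
  have hcov : ∀ p q, |∑ c : Fin N → Fin r, sameColour c p * sameColour c q| ≤
      (if q = p then C else 0) + (if q = p.swap then C else 0) := by
    intro p q
    have hC0 : 0 ≤ C := by positivity
    by_cases h : q ≠ p ∧ q ≠ p.swap
    · rw [sum_sameColour_cov_eq_zero p q h.1 h.2, abs_zero]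
      positivity
    · have hb : |∑ c : Fin N → Fin r, sameColour c p * sameColour c q| ≤ C := by
        refine (Finset.abs_sum_le_sum_abs _ _).trans
          ((Finset.sum_le_card_nsmul _ _ 1 (fun c _ => ?_)).trans (by simp [hC]))
        rw [abs_mul]
        exact mul_le_one₀ (abs_sameColour_le (NeZero.pos r) _ _) (abs_nonneg _)
          (abs_sameColour_le (NeZero.pos r) _ _)
      refine hb.trans ?_
      rw [not_and_or, not_not, not_not] at h
      rcases h with rfl | rfl
      · simp only [if_true]; split_ifs <;> linarith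
      · simp only [if_true]; split_ifs <;> linarith
  calc ∑ c : Fin N → Fin r, ‖∑ p, (sameColour c p : ℂ) • z p‖ ^ 2
      = ∑ p, ∑ q, (∑ c : Fin N → Fin r, sameColour c p * sameColour c q) * (⟪z p, z q⟫).re := by
        simp only [norm_sq_sum_smul]
        rw [Finset.sum_comm]
        refine Finset.sum_congr rfl (fun p _ => ?_)
        rw [Finset.sum_comm]
        exact Finset.sum_congr rfl (fun q _ => (Finset.sum_mul _ _ _).symm)
    _ ≤ ∑ p, ∑ q, ((if q = p then C else 0) + (if q = p.swap then C else 0)) *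
          ((‖z p‖ ^ 2 + ‖z q‖ ^ 2) / 2) := by
        refine Finset.sum_le_sum (fun p _ => Finset.sum_le_sum (fun q _ => ?_))
        refine (le_abs_self _).trans ?_
        rw [abs_mul]
        exact mul_le_mul (hcov p q) (hcs p q) (abs_nonneg _) ((abs_nonneg _).trans (hcov p q))
    _ = ∑ p, (C * ‖z p‖ ^ 2 + C * ((‖z p‖ ^ 2 + ‖z p.swap‖ ^ 2) / 2)) := by
        refine Finset.sum_congr rfl (fun p _ => ?_)
        simp [add_mul, Finset.sum_add_distrib, ite_mul]
    _ = C * (2 * ∑ p, ‖z p‖ ^ 2) := by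
        have hsw : ∑ p : Fin N × Fin N, ‖z p.swap‖ ^ 2 = ∑ p, ‖z p‖ ^ 2 :=
          (Equiv.prodComm (Fin N) (Fin N)).sum_comp (fun p => ‖z p‖ ^ 2)
        simp only [Finset.sum_add_distrib, ← Finset.mul_sum, ← Finset.sum_div, hsw]
        ring

/-- Independent centred choices: the second moments add. -/
lemma sum_sq_norm_indep {N r : ℕ} [NeZero r] (y : Fin N → Fin r → E)
    (hy : ∀ j, ∑ i, y j i = 0) :
    (r : ℝ) * ∑ c : Fin N → Fin r, ‖∑ j, y j (c j)‖ ^ 2
      = (Fintype.card (Fin N → Fin r) : ℝ) * ∑ j, ∑ i, ‖y j i‖ ^ 2 := by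
  classical
  have hshift : ∀ (j : Fin N) (k : Fin r) (h : (Fin N → Fin r) → ℝ),
      ∑ c : Fin N → Fin r, h (Function.update c j (c j + k)) = ∑ c : Fin N → Fin r, h c := by
    intro j k h
    let e : (Fin N → Fin r) ≃ (Fin N → Fin r) :=
      { toFun := fun c => Function.update c j (c j + k)
        invFun := fun c => Function.update c j (c j - k)
        left_inv := fun c => by simp
        right_inv := fun c => by simp }
    exact e.sum_comp h
  have hoff : ∀ j l, j ≠ l →
      (r : ℝ) * ∑ c : Fin N → Fin r, (⟪y j (c j), y l (c l)⟫).re = 0 := by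
    intro j l hjl
    calc (r : ℝ) * ∑ c : Fin N → Fin r, (⟪y j (c j), y l (c l)⟫).re
        = ∑ k : Fin r, ∑ c : Fin N → Fin r,
            (⟪y j (Function.update c j (c j + k) j), y l (Function.update c j (c j + k) l)⟫).re := by
          simp only [hshift j _ (fun c => (⟪y j (c j), y l (c l)⟫).re)]
          simp
      _ = 0 := by
          rw [Finset.sum_comm]
          refine Finset.sum_eq_zero (fun c _ => ?_)
          simp only [Function.update_self, Function.update_of_ne hjl.symm]
          have h0 : ∑ k, y j (c j + k) = 0 :=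
            (Equiv.sum_comp (Equiv.addLeft (c j)) (y j)).trans (hy j)
          rw [← Complex.re_sum, ← sum_inner, h0, inner_zero_left, Complex.zero_re]
  have hdiag : ∀ j, (r : ℝ) * ∑ c : Fin N → Fin r, ‖y j (c j)‖ ^ 2
      = (Fintype.card (Fin N → Fin r) : ℝ) * ∑ i, ‖y j i‖ ^ 2 := by
    intro j
    calc (r : ℝ) * ∑ c : Fin N → Fin r, ‖y j (c j)‖ ^ 2
        = ∑ k : Fin r, ∑ c : Fin N → Fin r, ‖y j (Function.update c j (c j + k) j)‖ ^ 2 := by
          simp only [hshift j _ (fun c => ‖y j (c j)‖ ^ 2)]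
          simp
      _ = _ := by
          rw [Finset.sum_comm]
          simp only [Function.update_self]
          rw [Finset.sum_congr rfl (fun c _ => Equiv.sum_comp (Equiv.addLeft (c j))
            (fun i => ‖y j i‖ ^ 2))]
          simp
  have hexp : ∀ c : Fin N → Fin r,
      ‖∑ j, y j (c j)‖ ^ 2 = ∑ j, ∑ l, (⟪y j (c j), y l (c l)⟫).re := by
    intro c
    simpa using norm_sq_sum_smul (univ : Finset (Fin N)) (fun _ => 1) (fun j => y j (c j))
  simp only [hexp]
  rw [Finset.sum_comm, Finset.mul_sum, Finset.mul_sum]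
  refine Finset.sum_congr rfl (fun j _ => ?_)
  rw [Finset.sum_comm, Finset.mul_sum, Finset.sum_eq_single j
    (fun l _ hl => hoff j l (Ne.symm hl)) (by simp), ← hdiag j]
  congr 1
  exact Finset.sum_congr rfl (fun c _ => by
    rw [@norm_sq_eq_re_inner ℂ, RCLike.re_to_complex])

/-- Derandomised averaging: one can choose an index at each site so that the total deviation
from the means is at most the sum of the variance bounds. -/
lemma exists_choice {κ T : Type*} [Fintype κ] [Fintype T] (lam : T → ℝ) (h0 : ∀ t, 0 ≤ lam t)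
    (h1 : ∑ t, lam t = 1) {m : ℕ} (y : κ → Fin m → T → E)
    (hy : ∀ k l, ∑ t, (lam t : ℂ) • y k l t = 0) :
    ∃ t : Fin m → T, ∑ k, ‖∑ l, y k l (t l)‖ ^ 2
      ≤ ∑ k, ∑ l, ∑ t, lam t * ‖y k l t‖ ^ 2 := by
  classical
  have hT : Nonempty T := by
    by_contra h
    have : IsEmpty T := not_nonempty_iff.1 h
    simp at h1
  obtain ⟨t0⟩ := hT
  suffices ∀ s : Finset (Fin m), ∃ t : Fin m → T, ∑ k, ‖∑ l ∈ s, y k l (t l)‖ ^ 2
      ≤ ∑ k, ∑ l ∈ s, ∑ t, lam t * ‖y k l t‖ ^ 2 from this Finset.univ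
  intro s
  induction s using Finset.induction with
  | empty => exact ⟨fun _ => t0, by simp⟩
  | insert l s hl ih =>
    obtain ⟨t, ht⟩ := ih
    set S : κ → E := fun k => ∑ i ∈ s, y k i (t i) with hS
    have havg : ∑ u, lam u * (∑ k, ‖y k l u + S k‖ ^ 2)
        = ∑ k, ‖S k‖ ^ 2 + ∑ k, ∑ u, lam u * ‖y k l u‖ ^ 2 := by
      simp only [Finset.mul_sum]
      rw [Finset.sum_comm, ← Finset.sum_add_distrib]
      refine Finset.sum_congr rfl (fun k _ => ?_)
      have hz : ∑ u, lam u * (⟪y k l u, S k⟫).re = 0 := by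
        have : ⟪∑ u, (lam u : ℂ) • y k l u, S k⟫ = 0 := by rw [hy, inner_zero_left]
        simp only [sum_inner, inner_smul_left, Complex.conj_ofReal] at this
        have := congrArg Complex.re this
        simpa [Complex.re_sum] using this
      simp only [norm_add_sq (𝕜 := ℂ), RCLike.re_to_complex, mul_add, Finset.sum_add_distrib]
      rw [← Finset.sum_mul, h1, one_mul]
      have hz2 : ∑ u, lam u * (2 * (⟪y k l u, S k⟫).re) = 0 := by
        simp only [mul_left_comm _ (2 : ℝ), ← Finset.mul_sum, hz, mul_zero]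
      rw [hz2]
      ring
    obtain ⟨u, hu⟩ : ∃ u, ∑ k, ‖y k l u + S k‖ ^ 2
        ≤ ∑ k, ‖S k‖ ^ 2 + ∑ k, ∑ u, lam u * ‖y k l u‖ ^ 2 := by
      by_contra h
      push Not at h
      obtain ⟨u1, hu1⟩ : ∃ u, 0 < lam u := by
        by_contra h'
        push Not at h'
        have : ∑ u, lam u ≤ 0 := Finset.sum_nonpos (fun u _ => h' u)
        linarith
      have := Finset.sum_lt_sum (s := univ)
        (f := fun u => lam u * (∑ k, ‖S k‖ ^ 2 + ∑ k, ∑ u, lam u * ‖y k l u‖ ^ 2))
        (g := fun u => lam u * ∑ k, ‖y k l u + S k‖ ^ 2)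
        (fun u _ => mul_le_mul_of_nonneg_left (h u).le (h0 u))
        ⟨u1, Finset.mem_univ _, mul_lt_mul_of_pos_left (h u1) hu1⟩
      rw [← Finset.sum_mul, h1, one_mul, havg] at this
      exact lt_irrefl _ this
    refine ⟨Function.update t l u, ?_⟩
    simp only [Finset.sum_insert hl, Finset.sum_add_distrib, Function.update_self]
    have hrest : ∀ k, ∑ i ∈ s, y k i (Function.update t l u i) = S k := fun k =>
      Finset.sum_congr rfl (fun i hi => by
        rw [Function.update_of_ne (fun h => hl (by rw [← h]; exact hi))])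
    simp only [hrest]
    linarith

end Vale.Agent.P078.General
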