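import Vale.Agent.P078.General.Null
import Vale.Agent.P078.General.Random

/-!
# Making the diagonal residual small
-/

namespace Vale.Agent.P078.General

open ComplexInnerProductSpace
open Filter Topology

universe u

variable {H : Type u} [NormedAddCommGroup H] [InnerProductSpace ℂ H] [CompleteSpace H]
variable {M : VonNeumannAlgebra H} {A : StarSubalgebra ℂ (H →L[ℂ] H)} (hA : IsMASAIn M A)

omit [CompleteSpace H] in
lemma norm_sum_apply_le {T : H →L[ℂ] H} {C : ℝ} (h : ‖T‖ ≤ C) (v : H) : ‖T v‖ ≤ C * ‖v‖ :=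
  (T.le_opNorm v).trans (mul_le_mul_of_nonneg_right h (norm_nonneg v))

lemma norm_pinch_le (P : Part A) (x : H →L[ℂ] H) : ‖P.pinch x‖ ≤ ‖x‖ := by
  refine ContinuousLinearMap.opNorm_le_of_re_inner_le (norm_nonneg _) (fun v w hv hw => ?_)
  refine (Complex.re_le_norm _).trans ?_
  simpa [hv, hw] using P.inner_pinch_le x v w

lemma residual_norm_le (P : Part A) (x : H →L[ℂ] H) (v : H) :
    ‖(P.pinch x - plim hA x) v‖ ≤ 2 * ‖x‖ * ‖v‖ :=
  norm_sum_apply_le (((norm_sub_le _ _).trans
    (add_le_add (norm_pinch_le P x) (plim_norm_le hA x))).trans (by linarith)) v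

/-- Finitely many partitions whose residual vectors are nearly orthogonal. -/
lemma exists_nearly_orth (P0 : Part A) (x : H →L[ℂ] H) {k : ℕ} (u : Fin k → H) {γ : ℝ}
    (hγ : 0 < γ) (n : ℕ) :
    ∃ P : Fin n → Part A, (∀ i, P0 ≤ P i) ∧ ∀ i j, i ≠ j → ∀ l,
      (⟪((P i).pinch x - plim hA x) (u l), ((P j).pinch x - plim hA x) (u l)⟫).re ≤ γ := by
  classical
  induction n with
  | zero => exact ⟨Fin.elim0, fun i => i.elim0, fun i => i.elim0⟩
  | succ n ih =>
    obtain ⟨P, hP0, hP⟩ := ih
    have hev : ∀ᶠ Q : Part A in (uf hA : Filter (Part A)), P0 ≤ Q ∧ ∀ il ∈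
        (Finset.univ : Finset (Fin n × Fin k)),
        (⟪(Q.pinch x - plim hA x) (u il.2), ((P il.1).pinch x - plim hA x) (u il.2)⟫).re ≤ γ := by
      refine (eventually_finer hA P0).and ((Finset.eventually_all _).2 (fun il _ => ?_))
      have h1 := (tendsto_plim hA x (u il.2) (((P il.1).pinch x - plim hA x) (u il.2))).sub_const
        ⟪plim hA x (u il.2), ((P il.1).pinch x - plim hA x) (u il.2)⟫
      rw [sub_self] at h1
      filter_upwards [((Complex.continuous_re.tendsto _).comp h1).eventually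
        (eventually_le_nhds (show ((0 : ℂ)).re < γ by simpa using hγ))] with Q hQ
      rw [sub_apply (Q.pinch x), inner_sub_left]
      exact hQ
    obtain ⟨Q, hQ0, hQ⟩ := hev.exists
    refine ⟨Fin.cons Q P, fun i => ?_, fun i j hij l => ?_⟩
    · induction i using Fin.cases <;> simp [hQ0, hP0]
    · induction i using Fin.cases with
      | zero =>
        induction j using Fin.cases with
        | zero => exact absurd rfl hij
        | succ j => simpa using hQ (j, l) (Finset.mem_univ _)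
      | succ i =>
        induction j using Fin.cases with
        | zero =>
          simp only [Fin.cons_succ, Fin.cons_zero]
          rw [← inner_conj_symm, Complex.conj_re]
          exact hQ (i, l) (Finset.mem_univ _)
        | succ j =>
          simp only [Fin.cons_succ]
          exact hP i j (fun h => hij (congrArg Fin.succ h)) l

/-- Some mean of residuals of fine partitions is small on given vectors. -/
lemma exists_small_mean (P0 : Part A) (x : H →L[ℂ] H) {k : ℕ} (u : Fin k → H) {s : ℝ}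
    (hs : 0 < s) :
    ∃ (n : ℕ) (P : Fin n → Part A), 0 < n ∧ (∀ i, P0 ≤ P i) ∧
      ∀ l, ‖∑ i, ((1 / (n : ℝ) : ℝ) : ℂ) • ((P i).pinch x - plim hA x) (u l)‖ ^ 2 ≤ s := by
  classical
  set D : ℝ := ∑ l, (2 * ‖x‖ * ‖u l‖) ^ 2 with hD
  have hD0 : 0 ≤ D := Finset.sum_nonneg (fun _ _ => sq_nonneg _)
  obtain ⟨n, hn⟩ := exists_nat_gt (2 * D / s + 1)
  have hnR : (0 : ℝ) < n := lt_trans (by positivity) hn
  obtain ⟨P, hP0, hP⟩ := exists_nearly_orth hA P0 x u (half_pos hs) n
  refine ⟨n, P, by exact_mod_cast hnR, hP0, fun l => ?_⟩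
  set z : Fin n → H := fun i => ((P i).pinch x - plim hA x) (u l) with hz
  rw [norm_sq_sum_smul Finset.univ (fun _ => 1 / (n : ℝ)) z]
  have hle : ∀ i j, (⟪z i, z j⟫).re ≤ (if i = j then D else 0) + s / 2 := by
    intro i j
    by_cases h : i = j
    · subst h
      rw [if_pos rfl, re_inner_self]
      have h1 : ‖z i‖ ^ 2 ≤ (2 * ‖x‖ * ‖u l‖) ^ 2 :=
        pow_le_pow_left₀ (norm_nonneg _) (residual_norm_le hA _ x _) 2
      have h2 : (2 * ‖x‖ * ‖u l‖) ^ 2 ≤ D :=
        Finset.single_le_sum (f := fun l => (2 * ‖x‖ * ‖u l‖) ^ 2) (fun _ _ => sq_nonneg _)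
          (Finset.mem_univ l)
      linarith
    · rw [if_neg h, zero_add]
      exact hP i j h l
  calc ∑ i, ∑ j, 1 / (n : ℝ) * (1 / n) * (⟪z i, z j⟫).re
      ≤ ∑ i, ∑ j, 1 / (n : ℝ) * (1 / n) * ((if i = j then D else 0) + s / 2) :=
        Finset.sum_le_sum (fun i _ => Finset.sum_le_sum (fun j _ =>
          mul_le_mul_of_nonneg_left (hle i j) (by positivity)))
    _ = D / n + s / 2 := by
        simp only [← Finset.mul_sum, Finset.sum_add_distrib, Finset.sum_ite_eq, Finset.mem_univ,
          if_true, Finset.sum_const, Finset.card_univ, Fintype.card_fin, nsmul_eq_mul]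
        field_simp
    _ ≤ s := by
        have : D / n ≤ s / 2 := by
          rw [div_le_iff₀ hnR]
          have h := mul_le_mul_of_nonneg_right (show 2 * D / s ≤ (n : ℝ) by linarith) hs.le
          rw [div_mul_cancel₀ _ hs.ne'] at h
          linarith
        linarith

include hA in
/-- Refinement of each piece of `P0` by its own partition. -/
lemma exists_blockwise (P0 : Part A) {n : ℕ} (P : Fin n → Part A) (t : Fin P0.n → Fin n) :
    ∃ R : Part A, P0 ≤ R ∧ ∀ x : H →L[ℂ] H,
      R.pinch x = ∑ l, P0.e l * (P (t l)).pinch x * P0.e l := by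
  classical
  let ι := Σ l : Fin P0.n, Fin (P (t l)).n
  let φ := Fintype.equivFin ι
  let f : ι → (H →L[ℂ] H) := fun a => P0.e a.1 * (P (t a.1)).e a.2
  have hf : ∀ a b : ι, a ≠ b → f a * f b = 0 := by
    rintro ⟨l, j⟩ ⟨l', j'⟩ hab
    change P0.e l * (P (t l)).e j * (P0.e l' * (P (t l')).e j') = 0
    rw [mul_assoc, ← mul_assoc ((P (t l)).e j), hA.comm ((P (t l)).mem j) (P0.mem l'), mul_assoc,
      ← mul_assoc]
    by_cases h : l = l'
    · subst h
      rw [(P (t l)).orth j j' (fun hj => hab (by rw [hj])), mul_zero]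
    · rw [P0.orth l l' h, zero_mul]
  have hsum : ∑ a : ι, f a = 1 := by
    rw [Fintype.sum_sigma]
    simp only [f, ← Finset.mul_sum, Part.total, mul_one]
  refine ⟨⟨Fintype.card ι, fun i => f (φ.symm i), fun i => mul_mem (P0.mem _) ((P _).mem _),
    fun i => hA.mul_proj (P0.proj _) ((P _).proj _) (P0.mem _) ((P _).mem _),
    fun i j hij => hf _ _ (fun h => hij (φ.symm.injective h)), by
      rw [Equiv.sum_comp φ.symm f]; exact hsum⟩, fun i => ⟨(φ.symm i).1, ?_⟩, fun x => ?_⟩
  · change P0.e _ * (P0.e _ * _) = P0.e _ * _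
    rw [← mul_assoc, (P0.proj _).isIdempotentElem]
  · change ∑ i, f (φ.symm i) * x * f (φ.symm i) = _
    rw [Equiv.sum_comp φ.symm (fun a => f a * x * f a), Fintype.sum_sigma]
    refine Finset.sum_congr rfl (fun l _ => ?_)
    simp only [Part.pinch, Finset.mul_sum, Finset.sum_mul]
    refine Finset.sum_congr rfl (fun j _ => ?_)
    change P0.e l * (P (t l)).e j * x * (P0.e l * (P (t l)).e j) = _
    simp only [mul_assoc]
    rw [hA.comm (P0.mem l) ((P (t l)).mem j)]

/-- A refinement of `P0` for which the residual is small below `q` on given vectors. -/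
lemma exists_residual {q : H →L[ℂ] H} (hq : IsStarProjection q) {P0 : Part A} {η : ℝ}
    (hη : 0 ≤ η) (hsm : SmallOn q P0 η) (x : H →L[ℂ] H) {k : ℕ} (u : Fin k → H) {s : ℝ}
    (hs : 0 < s) :
    ∃ R : Part A, P0 ≤ R ∧
      ∑ l, ‖q ((R.pinch x - plim hA x) (u l))‖ ^ 2 ≤ 32 * η * ‖x‖ ^ 2 * (∑ l, ‖u l‖ ^ 2) + s := by
  classical
  obtain ⟨n, P, hn, hP0, hmean⟩ := exists_small_mean hA P0 x u
    (s := s / (2 * (k + 1))) (by positivity)
  set lam : Fin n → ℝ := fun _ => 1 / (n : ℝ) with hlam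
  have hnR : (0 : ℝ) < n := by exact_mod_cast hn
  set D : Fin n → (H →L[ℂ] H) := fun i => (P i).pinch x - plim hA x with hDdef
  set mean : Fin k → H := fun l => ∑ i, (lam i : ℂ) • D i (u l) with hmeandef
  have hcomm : ∀ i j, P0.e j * D i = D i * P0.e j := fun i j => by
    simp only [D, mul_sub, sub_mul, pinch_comm_piece hA (hP0 i) j x,
      plim_comm hA x (P0.mem j)]
  let y : Fin k → Fin P0.n → Fin n → H := fun l j i => q (P0.e j (D i (u l) - mean l))
  have hlam1 : ∑ i, lam i = 1 := by simp [lam, hnR.ne']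
  have hy : ∀ l j, ∑ i, (lam i : ℂ) • y l j i = 0 := by
    intro l j
    have h0 : ∑ i, (lam i : ℂ) • (D i (u l) - mean l) = 0 := by
      simp only [smul_sub, Finset.sum_sub_distrib]
      rw [← Finset.sum_smul, ← Complex.ofReal_sum, hlam1, Complex.ofReal_one, one_smul]
      exact sub_self _
    have h1 : ∀ i, (lam i : ℂ) • y l j i = q (P0.e j ((lam i : ℂ) • (D i (u l) - mean l))) :=
      fun i => by simp only [y, map_smul]
    rw [Finset.sum_congr rfl (fun i _ => h1 i), ← map_sum, ← map_sum, h0, map_zero, map_zero]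
  have hfD : ∀ i j v, ‖P0.e j (D i v)‖ ≤ 2 * ‖x‖ * ‖P0.e j v‖ := by
    intro i j v
    have : P0.e j (D i v) = D i (P0.e j v) := DFunLike.congr_fun (hcomm i j) v
    rw [this]
    exact residual_norm_le hA (P i) x _
  have hyb : ∀ l j i, ‖y l j i‖ ^ 2 ≤ η * (4 * ‖x‖ * ‖P0.e j (u l)‖) ^ 2 := by
    intro l j i
    refine (hsm P0 le_rfl j _).trans (mul_le_mul_of_nonneg_left ?_ hη)
    refine pow_le_pow_left₀ (norm_nonneg _) ?_ 2
    have h1 : ‖P0.e j (mean l)‖ ≤ 2 * ‖x‖ * ‖P0.e j (u l)‖ := by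
      simp only [mean, map_sum, map_smul]
      refine (norm_sum_le _ _).trans ?_
      calc ∑ i, ‖(lam i : ℂ) • P0.e j (D i (u l))‖
          ≤ ∑ i, lam i * (2 * ‖x‖ * ‖P0.e j (u l)‖) := Finset.sum_le_sum (fun i _ => by
            rw [norm_smul, Complex.norm_real, Real.norm_of_nonneg (by simp [lam])]
            exact mul_le_mul_of_nonneg_left (hfD i j _) (by simp [lam]))
        _ = _ := by rw [← Finset.sum_mul, hlam1, one_mul]
    rw [map_sub]
    linarith [norm_sub_le (P0.e j (D i (u l))) (P0.e j (mean l)), hfD i j (u l)]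
  obtain ⟨t, ht⟩ := exists_choice lam (fun i => by simp [lam]) hlam1 y hy
  obtain ⟨R, hR0, hR⟩ := exists_blockwise hA P0 P t
  refine ⟨R, hR0, ?_⟩
  have hid : ∀ l, q ((R.pinch x - plim hA x) (u l)) = (∑ j, y l j (t j)) + q (mean l) := by
    intro l
    have e1 : R.pinch x - plim hA x = ∑ j, P0.e j * D (t j) := by
      rw [hR]
      conv_lhs => arg 2; rw [← one_mul (plim hA x), ← P0.total, Finset.sum_mul]
      rw [← Finset.sum_sub_distrib]
      refine Finset.sum_congr rfl (fun j _ => ?_)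
      rw [mul_assoc, ← pinch_comm_piece hA (hP0 (t j)) j x, ← mul_assoc,
        (P0.proj j).isIdempotentElem.eq, mul_sub]
    have e2 : q (mean l) = ∑ j, q (P0.e j (mean l)) := by
      have : ∑ j, P0.e j (mean l) = mean l := by
        simpa [_root_.sum_apply] using DFunLike.congr_fun P0.total (mean l)
      rw [← map_sum, this]
    rw [e1, e2, ← Finset.sum_add_distrib, _root_.sum_apply, map_sum]
    refine Finset.sum_congr rfl (fun j _ => ?_)
    change q (P0.e j (D (t j) (u l))) = q (P0.e j (D (t j) (u l) - mean l)) + q (P0.e j (mean l))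
    rw [map_sub, map_sub, sub_add_cancel]
  calc ∑ l, ‖q ((R.pinch x - plim hA x) (u l))‖ ^ 2
      ≤ ∑ l, (2 * ‖∑ j, y l j (t j)‖ ^ 2 + 2 * (s / (2 * (k + 1)))) := by
        refine Finset.sum_le_sum (fun l _ => ?_)
        rw [hid]
        have h1 := norm_add_le (∑ j, y l j (t j)) (q (mean l))
        have h2 := proj_norm_le hq (mean l)
        have h3 : ‖mean l‖ ^ 2 ≤ s / (2 * (k + 1)) := hmean l
        nlinarith [norm_nonneg ((∑ j, y l j (t j)) + q (mean l)),
          norm_nonneg (∑ j, y l j (t j)), norm_nonneg (mean l), norm_nonneg (q (mean l)),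
          sq_nonneg (‖∑ j, y l j (t j)‖ - ‖mean l‖),
          pow_le_pow_left₀ (norm_nonneg _) (h1.trans (add_le_add_right h2 _)) 2]
    _ ≤ 32 * η * ‖x‖ ^ 2 * (∑ l, ‖u l‖ ^ 2) + s := by
        rw [Finset.sum_add_distrib, ← Finset.mul_sum, Finset.sum_const, Finset.card_univ,
          Fintype.card_fin, nsmul_eq_mul]
        have h1 : (k : ℝ) * (2 * (s / (2 * (k + 1)))) ≤ s := by
          calc (k : ℝ) * (2 * (s / (2 * (k + 1)))) ≤ (k + 1) * (2 * (s / (2 * (k + 1)))) :=
                mul_le_mul_of_nonneg_right (by linarith) (by positivity)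
            _ = s := by field_simp
        have h2 : ∑ l, ∑ j, ∑ i, lam i * ‖y l j i‖ ^ 2
            ≤ 16 * η * ‖x‖ ^ 2 * ∑ l, ‖u l‖ ^ 2 := by
          calc ∑ l, ∑ j, ∑ i, lam i * ‖y l j i‖ ^ 2
              ≤ ∑ l, ∑ j, ∑ i, lam i * (η * (4 * ‖x‖ * ‖P0.e j (u l)‖) ^ 2) :=
                Finset.sum_le_sum (fun l _ => Finset.sum_le_sum (fun j _ => Finset.sum_le_sum
                  (fun i _ => mul_le_mul_of_nonneg_left (hyb l j i) (by simp [lam]))))
            _ = _ := by
                simp only [← Finset.sum_mul, hlam1, one_mul]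
                rw [Finset.mul_sum]
                refine Finset.sum_congr rfl (fun l _ => ?_)
                rw [← P0.norm_sq_sum (u l), Finset.mul_sum]
                exact Finset.sum_congr rfl (fun j _ => by ring)
        linarith

end Vale.Agent.P078.General
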