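import Mathlib

/-!
# Strong-operator paving in an arbitrary von Neumann algebra

Definitions for the splitting of a MASA into a part without normal expectation and an expected
part.
-/

namespace Vale.Agent.P078.General

universe u

variable {H : Type u} [NormedAddCommGroup H] [InnerProductSpace ℂ H] [CompleteSpace H]

/-- `A` is a maximal abelian self-adjoint subalgebra of `M`: it is the set of elements of `M`
commuting with `A`. -/
def IsMASAIn (M : VonNeumannAlgebra H) (A : StarSubalgebra ℂ (H →L[ℂ] H)) : Prop :=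
  (A : Set (H →L[ℂ] H)) = Set.centralizer (A : Set (H →L[ℂ] H)) ∩ (M : Set (H →L[ℂ] H))

/-- `x` is `(ε, r)` so-pavable over `A` inside `M`. -/
def SoPavableIn (M : VonNeumannAlgebra H) (A : StarSubalgebra ℂ (H →L[ℂ] H)) (ε : ℝ) (r : ℕ)
    (x : H →L[ℂ] H) : Prop :=
  ∀ (F : Finset H) (δ : ℝ), 0 < δ →
    ∃ p : Fin r → (H →L[ℂ] H), (∀ i, p i ∈ A ∧ IsStarProjection (p i)) ∧
      (∀ i j, i ≠ j → p i * p j = 0) ∧ ∑ i, p i = 1 ∧
      ∃ a ∈ A, IsSelfAdjoint a ∧ ‖a‖ ≤ ‖x‖ ∧
        ∃ q : H →L[ℂ] H, q ∈ M ∧ IsStarProjection q ∧ (∀ ξ ∈ F, ‖(1 - q) ξ‖ < δ) ∧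
          ‖q * ((∑ i, p i * x * p i) - a) * q‖ ≤ ε * ‖x‖

/-- Every self-adjoint element of `M` is `(ε, r)` so-pavable over `A`;
that is, the so-paving number of `A ⊆ M` at `ε` is at most `r`. -/
def AllPavable (M : VonNeumannAlgebra H) (A : StarSubalgebra ℂ (H →L[ℂ] H)) (ε : ℝ) (r : ℕ) :
    Prop :=
  ∀ x ∈ M, IsSelfAdjoint x → SoPavableIn M A ε r x

open ComplexOrder in
/-- `ψ` restricts to a normal positive functional on `M` having `A` in its centraliser.
Normal means: on `M`, a norm limit of finite sums of vector functionals. -/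
def IsCentralNormal (M : VonNeumannAlgebra H) (A : StarSubalgebra ℂ (H →L[ℂ] H))
    (ψ : (H →L[ℂ] H) →ₗ[ℂ] ℂ) : Prop :=
  (∀ x ∈ M, 0 ≤ ψ (star x * x)) ∧
    (∀ a ∈ A, ∀ x ∈ M, ψ (a * x) = ψ (x * a)) ∧
      ∀ ε : ℝ, 0 < ε → ∃ (n : ℕ) (v w : Fin n → H),
        ∀ x ∈ M, ‖ψ x - ∑ i, inner ℂ (w i) (x (v i))‖ ≤ ε * ‖x‖

/-- The `A`-central normal positive functionals separate the positive cone of `M`
(for a MASA: `A` is the range of a faithful normal conditional expectation of `M`). -/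
def Expected (M : VonNeumannAlgebra H) (A : StarSubalgebra ℂ (H →L[ℂ] H)) : Prop :=
  ∀ x ∈ M, x ≠ 0 → ∃ ψ, IsCentralNormal M A ψ ∧ ψ (star x * x) ≠ 0

/-- There is no nonzero `A`-central normal positive functional on `M`
(for a MASA: no nonzero corner has a normal conditional expectation onto `A`). -/
def Unexpected (M : VonNeumannAlgebra H) (A : StarSubalgebra ℂ (H →L[ℂ] H)) : Prop :=
  ∀ ψ, IsCentralNormal M A ψ → ψ 1 = 0

end Vale.Agent.P078.General
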