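import Vale.Agent.P078.Colour
import Vale.Agent.P078.General.Defs

/-!
# Projections and spectral cuts in a von Neumann algebra
-/

namespace Vale.Agent.P078.General

open ComplexInnerProductSpace
open scoped CStarAlgebra

universe u

variable {H : Type u} [NormedAddCommGroup H] [InnerProductSpace ℂ H] [CompleteSpace H]

lemma mem_vna_of_commute {M : VonNeumannAlgebra H} {x : H →L[ℂ] H}
    (h : ∀ y ∈ Set.centralizer (M : Set (H →L[ℂ] H)), y * x = x * y) : x ∈ M := by
  rw [← SetLike.mem_coe, ← M.centralizer_centralizer]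
  exact h

lemma commute_of_mem_centralizer {M : VonNeumannAlgebra H} {x y : H →L[ℂ] H} (hx : x ∈ M)
    (hy : y ∈ Set.centralizer (M : Set (H →L[ℂ] H))) : y * x = x * y :=
  (hy x hx).symm

/-- The projection onto a closed subspace invariant under `y` and `star y` commutes with `y`. -/
lemma starProjection_commute (K : Submodule ℂ H) [K.HasOrthogonalProjection] (y : H →L[ℂ] H)
    (hy : ∀ k ∈ K, y k ∈ K) (hy' : ∀ k ∈ K, star y k ∈ K) :
    y * K.starProjection = K.starProjection * y := by
  refine ContinuousLinearMap.ext (fun v => ?_)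
  change y (K.starProjection v) = K.starProjection (y v)
  refine (Submodule.eq_starProjection_of_mem_orthogonal (hy _ (K.starProjection_apply_mem v))
    ?_).symm
  rw [← map_sub, Submodule.mem_orthogonal]
  intro k hk
  have := (Submodule.mem_orthogonal _ _).1 (K.sub_starProjection_mem_orthogonal v) _ (hy' k hk)
  rw [ContinuousLinearMap.star_eq_adjoint, ContinuousLinearMap.adjoint_inner_left] at this
  exact this

/-- Range projection of a positive part above a threshold: the spectral cut. -/
lemma exists_cut {T : H →L[ℂ] H} (hT : IsSelfAdjoint T)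
    (hT0 : ∀ v, 0 ≤ (⟪T v, v⟫).re) {t : ℝ} (ht : 0 < t) :
    ∃ s : H →L[ℂ] H, IsStarProjection s ∧
      (∀ y, Commute T y → Commute T (star y) → y * s = s * y) ∧
      (∀ v, t * ‖s v‖ ^ 2 ≤ (⟪T v, v⟫).re) ∧
      (∀ v, s v = 0 → (⟪T v, v⟫).re ≤ t * ‖v‖ ^ 2) ∧
      ∀ v, ‖(1 - s) (T v)‖ ≤ t * ‖v‖ := by
  set f : H →L[ℂ] H := cfc (fun z : ℝ => max (z - t) 0) T with hf
  set g : H →L[ℂ] H := cfc (fun z : ℝ => min z t) T with hg
  have hfg : T = f + g := by
    rw [hf, hg, ← cfc_add (a := T) (fun z : ℝ => max (z - t) 0) (fun z => min z t)]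
    conv_lhs => rw [← cfc_id ℝ T hT]
    refine cfc_congr (fun z _ => ?_)
    simp only [id]
    rcases le_total z t with h | h
    · rw [max_eq_right (by linarith), min_eq_left h]; ring
    · rw [max_eq_left (by linarith), min_eq_right h]; ring
  have hspec : ∀ z ∈ spectrum ℝ T, 0 ≤ z := by
    have hpos : T.IsPositive := by
      refine ⟨hT.isSymmetric, fun v => ?_⟩
      simpa [ContinuousLinearMap.reApplyInnerSelf_apply] using hT0 v
    exact fun z hz => spectrum_nonneg_of_nonneg
      ((ContinuousLinearMap.nonneg_iff_isPositive T).2 hpos) hz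
  have hgn : ‖g‖ ≤ t := by
    refine norm_cfc_le ht.le (fun z hz => ?_)
    rw [Real.norm_eq_abs, abs_of_nonneg (le_min (hspec z hz) ht.le)]
    exact min_le_right _ _
  have hfs : IsSelfAdjoint f := cfc_predicate _ T
  let K : Submodule ℂ H := f.range.topologicalClosure
  have : CompleteSpace K := Submodule.topologicalClosure.completeSpace _
  have hfix : ∀ v, K.starProjection (f v) = f v := fun v =>
    Submodule.starProjection_eq_self_iff.2 (f.range.le_topologicalClosure ⟨v, rfl⟩)
  have hscomm : ∀ y, Commute T y → Commute T (star y) →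
      y * K.starProjection = K.starProjection * y := by
    have hinv : ∀ y, Commute T y → ∀ k ∈ K, y k ∈ K := by
      intro y hy k hk
      have hfy : f * y = y * f := (hy.cfc_real _).eq
      have hmaps : Set.MapsTo y (f.range : Set H) (f.range : Set H) := by
        rintro _ ⟨u, rfl⟩
        exact ⟨y u, DFunLike.congr_fun hfy u⟩
      exact (hmaps.closure y.continuous) hk
    exact fun y hy hy' => starProjection_commute K y (hinv y hy) (hinv _ hy')
  have hTs : T * K.starProjection = K.starProjection * T :=
    hscomm T (Commute.refl T) (by rw [hT.star_eq])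
  have hproj : IsStarProjection K.starProjection := isStarProjection_starProjection
  refine ⟨K.starProjection, hproj, hscomm, fun v => ?_, fun v hv => ?_, fun v => ?_⟩
  · have hK : ∀ k ∈ K, t * ‖k‖ ^ 2 ≤ (⟪T k, k⟫).re := by
      intro k hk
      have hcl : IsClosed {k : H | t * ‖k‖ ^ 2 ≤ (⟪T k, k⟫).re} :=
        isClosed_le (by fun_prop) (by fun_prop)
      refine hcl.closure_subset_iff.2 ?_ hk
      rintro _ ⟨u, rfl⟩
      let d : H →L[ℂ] H := cfc (fun z : ℝ => max (z - t) 0 * Real.sqrt (max (z - t) 0)) T
      have hds : IsSelfAdjoint d := cfc_predicate _ T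
      have hd : f * T * f - t • (f * f) = d * d := by
        have e1 : f * T * f
            = cfc (fun z : ℝ => max (z - t) 0 * z * max (z - t) 0) T := by
          rw [cfc_mul (fun z : ℝ => max (z - t) 0 * z) (fun z => max (z - t) 0) T,
            cfc_mul (fun z : ℝ => max (z - t) 0) (fun z => z) T, cfc_id' ℝ T]
        have e2 : t • (f * f) = cfc (fun z : ℝ => t * (max (z - t) 0 * max (z - t) 0)) T := by
          rw [cfc_const_mul t (fun z : ℝ => max (z - t) 0 * max (z - t) 0) T,
            cfc_mul (fun z : ℝ => max (z - t) 0) (fun z => max (z - t) 0) T]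
        rw [e1, e2, ← cfc_sub (a := T) (fun z : ℝ => max (z - t) 0 * z * max (z - t) 0)
            (fun z : ℝ => t * (max (z - t) 0 * max (z - t) 0)), ← cfc_mul (fun z : ℝ =>
            max (z - t) 0 * Real.sqrt (max (z - t) 0)) _ T]
        refine cfc_congr (fun z _ => ?_)
        rcases le_total z t with h | h
        · simp [max_eq_right (show z - t ≤ 0 by linarith)]
        · simp only [max_eq_left (show 0 ≤ z - t by linarith)]
          have := Real.mul_self_sqrt (show 0 ≤ z - t by linarith)
          linear_combination (z - t) ^ 2 * (-1 : ℝ) * this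
      have h1 : (⟪(f * T * f - t • (f * f)) u, u⟫).re = ‖d u‖ ^ 2 := by
        rw [hd]
        change (⟪d (d u), u⟫).re = _
        rw [sa_inner hds, inner_self_eq_norm_sq_to_K]
        norm_cast
      rw [sub_apply, smul_apply, inner_sub_left, inner_smul_left_eq_smul, Complex.sub_re,
        Complex.smul_re] at h1
      change t * ‖f u‖ ^ 2 ≤ (⟪T (f u), f u⟫).re
      have h2 : (⟪(f * f) u, u⟫).re = ‖f u‖ ^ 2 := by
        change (⟪f (f u), u⟫).re = _
        rw [sa_inner hfs, inner_self_eq_norm_sq_to_K]
        norm_cast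
      have h3 : ⟪(f * T * f) u, u⟫ = ⟪T (f u), f u⟫ := sa_inner hfs _ _
      rw [h2, h3, smul_eq_mul] at h1
      nlinarith [sq_nonneg ‖d u‖]
    set s := K.starProjection with hs
    have h1 := hK (s v) (K.starProjection_apply_mem v)
    have h2 := hT0 (v - s v)
    have hx : ⟪T (s v), v - s v⟫ = 0 := by
      have e : T (s v) = s (T (s v)) := by
        have := DFunLike.congr_fun hTs (s v)
        change T (s (s v)) = s (T (s v)) at this
        rwa [proj_apply_apply hproj] at this
      rw [e, sa_inner hproj.isSelfAdjoint, map_sub, proj_apply_apply hproj, sub_self,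
        inner_zero_right]
    have hy : ⟪T (v - s v), s v⟫ = 0 := by
      rw [sa_inner hT, ← inner_conj_symm, hx, map_zero]
    have hexp : ⟪T v, v⟫ = ⟪T (s v), s v⟫ + ⟪T (s v), v - s v⟫
        + (⟪T (v - s v), s v⟫ + ⟪T (v - s v), v - s v⟫) := by
      rw [← inner_add_right, ← inner_add_right, add_sub_cancel, ← inner_add_left, ← map_add,
        add_sub_cancel]
    rw [hexp, hx, hy, add_zero, zero_add, Complex.add_re]
    linarith
  · have hfv : f v = 0 := by
      rw [← norm_eq_zero, ← sq_eq_zero_iff, @norm_sq_eq_re_inner ℂ, sa_inner hfs]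
      have : ⟪v, f (f v)⟫ = 0 := by
        rw [← hfix (f v), ← sa_inner hproj.isSelfAdjoint, hv, inner_zero_left]
      simp [this]
    have : T v = g v := by
      conv_lhs => rw [hfg]
      rw [add_apply, hfv, zero_add]
    rw [this]
    refine (Complex.re_le_norm _).trans ((norm_inner_le_norm _ _).trans ?_)
    rw [sq, ← mul_assoc]
    exact mul_le_mul_of_nonneg_right ((g.le_opNorm v).trans
      (mul_le_mul_of_nonneg_right hgn (norm_nonneg v))) (norm_nonneg v)
  · have : (1 - K.starProjection) (T v) = (1 - K.starProjection) (g v) := by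
      conv_lhs => rw [hfg]
      simp only [add_apply, sub_apply, one_apply_eq_self, map_add, hfix]
      abel
    rw [this]
    refine (proj_norm_le hproj.one_sub _).trans ?_
    exact (g.le_opNorm v).trans (mul_le_mul_of_nonneg_right hgn (norm_nonneg v))

/-- If `W` is small on some vectors, then it is small in norm on a slightly smaller projection. -/
lemma exists_small_subproj {M : VonNeumannAlgebra H} {q W : H →L[ℂ] H} (hq : IsStarProjection q)
    (hqM : q ∈ M) (hWM : W ∈ M) {γ : ℝ} (hγ : 0 < γ) :
    ∃ q' : H →L[ℂ] H, IsStarProjection q' ∧ q' ∈ M ∧ q * q' = q' ∧ ‖W * q'‖ ≤ γ ∧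
      ∀ v, γ * ‖(q - q') v‖ ≤ ‖W (q v)‖ := by
  set T : H →L[ℂ] H := star (W * q) * (W * q) with hTdef
  have hTM : T ∈ M := mul_mem (star_mem (mul_mem hWM hqM)) (mul_mem hWM hqM)
  have hTv : ∀ v, (⟪T v, v⟫).re = ‖W (q v)‖ ^ 2 := fun v => by
    change (⟪star (W * q) ((W * q) v), v⟫).re = _
    rw [ContinuousLinearMap.star_eq_adjoint, ContinuousLinearMap.adjoint_inner_left,
      inner_self_eq_norm_sq_to_K]
    norm_cast
  obtain ⟨s, hs, hsc, hlow, hup, -⟩ := exists_cut (IsSelfAdjoint.star_mul_self (W * q))
    (fun v => by rw [hTv]; positivity) (sq_pos_of_pos hγ)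
  have hsM : s ∈ M := by
    refine mem_vna_of_commute (fun y hy => hsc y (commute_of_mem_centralizer hTM hy).symm ?_)
    refine (commute_of_mem_centralizer hTM (Set.star_mem_centralizer' ?_ hy)).symm
    exact fun z hz => star_mem hz
  have hsq : s * (1 - q) = 0 := by
    refine ContinuousLinearMap.ext (fun v => ?_)
    have h0 := hlow ((1 - q) v)
    rw [hTv] at h0
    have h1 : q ((1 - q) v) = 0 := by
      simp [proj_apply_apply hq]
    rw [h1, map_zero, norm_zero] at h0
    have h2 : ‖s ((1 - q) v)‖ ^ 2 ≤ 0 := by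
      by_contra hc
      push Not at hc
      nlinarith [mul_pos (sq_pos_of_pos hγ) hc]
    simpa using le_antisymm h2 (sq_nonneg _)
  have hsq' : s * q = s := by
    rw [mul_sub, mul_one, sub_eq_zero] at hsq
    exact hsq.symm
  have hqs : q * s = s := by
    have := congrArg star hsq'
    rwa [star_mul, hq.isSelfAdjoint.star_eq, hs.isSelfAdjoint.star_eq] at this
  have hq' : IsStarProjection (q - s) := by
    refine ⟨?_, hq.isSelfAdjoint.sub hs.isSelfAdjoint⟩
    change (q - s) * (q - s) = q - s
    rw [mul_sub, sub_mul, sub_mul, hqs, hsq', hq.isIdempotentElem.eq, hs.isIdempotentElem.eq]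
    abel
  refine ⟨q - s, hq', sub_mem hqM hsM, by rw [mul_sub, hq.isIdempotentElem.eq, hqs], ?_,
    fun v => ?_⟩
  · refine ContinuousLinearMap.opNorm_le_bound _ hγ.le (fun v => ?_)
    set u := (q - s) v with hu
    have hsu : s u = 0 := by
      change (s * (q - s)) v = 0
      rw [mul_sub, hsq', hs.isIdempotentElem.eq, sub_self]; rfl
    have hqu : q u = u := by
      change (q * (q - s)) v = (q - s) v
      rw [mul_sub, hq.isIdempotentElem.eq, hqs]
    have h1 := hup u hsu
    rw [hTv, hqu] at h1
    have h2 : ‖W u‖ ^ 2 ≤ (γ * ‖v‖) ^ 2 := by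
      rw [mul_pow]
      exact h1.trans (mul_le_mul_of_nonneg_left
        (pow_le_pow_left₀ (norm_nonneg _) (proj_norm_le hq' v) 2) (sq_nonneg _))
    exact (sq_le_sq₀ (norm_nonneg _) (by positivity)).1 h2
  · have h1 := hlow v
    rw [hTv, ← mul_pow] at h1
    have : (q - (q - s)) v = s v := by simp
    rw [this]
    exact (sq_le_sq₀ (by positivity) (norm_nonneg _)).1 h1

end Vale.Agent.P078.General
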