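import Vale.Agent.P078.General.Residual

/-!
# Gluing a paving of the expected part with random colours on the null part
-/

namespace Vale.Agent.P078.General

open ComplexInnerProductSpace
open Filter Topology
open Finset

universe u

variable {H : Type u} [NormedAddCommGroup H] [InnerProductSpace ℂ H] [CompleteSpace H]
variable {M : VonNeumannAlgebra H} {A : StarSubalgebra ℂ (H →L[ℂ] H)} (hA : IsMASAIn M A)

lemma proj_opNorm_le {p : H →L[ℂ] H} (hp : IsStarProjection p) : ‖p‖ ≤ 1 :=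
  ContinuousLinearMap.opNorm_le_bound _ zero_le_one (fun v => by
    simpa using proj_norm_le hp v)

lemma conj_norm_le {p q : H →L[ℂ] H} (hp : IsStarProjection p) (hq : IsStarProjection q)
    (T : H →L[ℂ] H) : ‖p * T * q‖ ≤ ‖T‖ := by
  calc ‖p * T * q‖ ≤ ‖p‖ * ‖T‖ * ‖q‖ :=
        (norm_mul_le _ _).trans (mul_le_mul_of_nonneg_right (norm_mul_le _ _) (norm_nonneg _))
    _ ≤ 1 * ‖T‖ * 1 := by
        gcongr
        · exact proj_opNorm_le hp
        · exact proj_opNorm_le hq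
    _ = ‖T‖ := by ring

lemma orth_block_norm {p q p' q' S T : H →L[ℂ] H} (hp : IsStarProjection p) (hpq : p * q = 0)
    (hp' : IsStarProjection p') (hq' : IsStarProjection q') (hpq' : p' * q' = 0) (hS : p * S = S)
    (hS' : S * p' = S) (hT : q * T = T) (hT' : T * q' = T) {c : ℝ} (hc : 0 ≤ c) (hSc : ‖S‖ ≤ c)
    (hTc : ‖T‖ ≤ c) : ‖S + T‖ ≤ c := by
  refine ContinuousLinearMap.opNorm_le_bound _ hc (fun v => ?_)
  have h1 : ⟪S v, T v⟫ = 0 := by
    have e1 : S v = p (S v) := (DFunLike.congr_fun hS v).symm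
    have e2 : T v = q (T v) := (DFunLike.congr_fun hT v).symm
    have e3 : p (q (T v)) = 0 := DFunLike.congr_fun hpq (T v)
    rw [e1, e2, sa_inner hp.isSelfAdjoint, e3, inner_zero_right]
  have h2 := norm_add_sq_eq_norm_sq_add_norm_sq_of_inner_eq_zero (S v) (T v) h1
  have h3 : ‖S v‖ ≤ c * ‖p' v‖ := by
    have : S v = S (p' v) := (DFunLike.congr_fun hS' v).symm
    rw [this]
    exact norm_sum_apply_le hSc _
  have h4 : ‖T v‖ ≤ c * ‖q' v‖ := by
    have : T v = T (q' v) := (DFunLike.congr_fun hT' v).symm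
    rw [this]
    exact norm_sum_apply_le hTc _
  have h5 : ‖p' v‖ ^ 2 + ‖q' v‖ ^ 2 ≤ ‖v‖ ^ 2 := by
    have h6 := proj_norm_sq_add hp' v
    have e : q' v = q' (v - p' v) := by
      have h7 : q' * p' = 0 := by
        have := congrArg star hpq'
        rwa [star_mul, star_zero, hp'.isSelfAdjoint.star_eq, hq'.isSelfAdjoint.star_eq] at this
      have h8 : q' (p' v) = 0 := DFunLike.congr_fun h7 v
      rw [map_sub, h8, sub_zero]
    have h9 := pow_le_pow_left₀ (norm_nonneg _) (proj_norm_le hq' (v - p' v)) 2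
    rw [← e] at h9
    linarith
  refine (sq_le_sq₀ (norm_nonneg _) (by positivity)).1 ?_
  change ‖S v + T v‖ ^ 2 ≤ _
  rw [sq, h2, ← sq, ← sq]
  calc ‖S v‖ ^ 2 + ‖T v‖ ^ 2 ≤ (c * ‖p' v‖) ^ 2 + (c * ‖q' v‖) ^ 2 := add_le_add
        (pow_le_pow_left₀ (norm_nonneg _) h3 2) (pow_le_pow_left₀ (norm_nonneg _) h4 2)
    _ = c ^ 2 * (‖p' v‖ ^ 2 + ‖q' v‖ ^ 2) := by ring
    _ ≤ (c * ‖v‖) ^ 2 := by
        rw [mul_pow]; exact mul_le_mul_of_nonneg_left h5 (sq_nonneg _)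

lemma piece_mul_eq (P : Part A) {r : ℕ} (c : Fin P.n → Fin r) (x : H →L[ℂ] H) :
    (∑ i, P.piece c i * x * P.piece c i)
      = ∑ p : Fin P.n × Fin P.n, if c p.1 = c p.2 then P.e p.1 * x * P.e p.2 else 0 := by
  classical
  simp only [Part.piece]
  rw [Fintype.sum_prod_type]
  conv_rhs => rw [← Finset.sum_fiberwise univ c]
  refine Finset.sum_congr rfl (fun i _ => ?_)
  rw [Finset.sum_mul, Finset.sum_mul]
  refine Finset.sum_congr rfl (fun I hI => ?_)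
  rw [Finset.mul_sum, Finset.sum_filter]
  refine Finset.sum_congr rfl (fun J _ => ?_)
  simp only [Finset.mem_filter] at hI
  simp [hI.2, eq_comm]

lemma colour_identity (P : Part A) {r : ℕ} (c : Fin P.n → Fin r) (x : H →L[ℂ] H) :
    (∑ i, P.piece c i * x * P.piece c i) - ((1 / (r : ℝ) : ℝ) : ℂ) • x
        - ((1 - 1 / (r : ℝ) : ℝ) : ℂ) • P.pinch x
      = ∑ p : Fin P.n × Fin P.n, (sameColour c p : ℂ) • (P.e p.1 * x * P.e p.2) := by
  classical
  have hx : x = ∑ p : Fin P.n × Fin P.n, P.e p.1 * x * P.e p.2 := by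
    simp [Fintype.sum_prod_type, ← Finset.mul_sum, ← Finset.sum_mul, P.total]
  have hD : P.pinch x
      = ∑ p : Fin P.n × Fin P.n, if p.1 = p.2 then P.e p.1 * x * P.e p.2 else 0 := by
    simp [Part.pinch, Fintype.sum_prod_type]
  rw [piece_mul_eq, hD]
  conv_lhs => arg 1; arg 2; rw [hx]
  simp only [Finset.smul_sum, ← Finset.sum_sub_distrib]
  refine Finset.sum_congr rfl (fun p _ => ?_)
  unfold sameColour
  by_cases h : p.1 = p.2
  · simp [h, sub_smul, Complex.ofReal_sub]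
  · simp only [h, if_false, smul_zero, sub_zero]
    split_ifs <;> simp [sub_smul, Complex.ofReal_sub]

lemma sum_norm_sq_offdiag {q x : H →L[ℂ] H} {P0 P : Part A} {η : ℝ} (hη : 0 ≤ η)
    (hsm : SmallOn q P0 η) (hP : P0 ≤ P) (v : H) :
    ∑ p : Fin P.n × Fin P.n, ‖q ((P.e p.1 * x * P.e p.2) v)‖ ^ 2 ≤ η * (‖x‖ * ‖v‖) ^ 2 := by
  calc ∑ p : Fin P.n × Fin P.n, ‖q ((P.e p.1 * x * P.e p.2) v)‖ ^ 2
      ≤ ∑ p : Fin P.n × Fin P.n, η * ‖P.e p.1 (x (P.e p.2 v))‖ ^ 2 :=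
        Finset.sum_le_sum (fun p _ => hsm P hP p.1 (x (P.e p.2 v)))
    _ = η * ∑ j, ‖x (P.e j v)‖ ^ 2 := by
        rw [← Finset.mul_sum, Fintype.sum_prod_type, Finset.sum_comm]
        simp only [P.norm_sq_sum]
    _ ≤ η * ∑ j, ‖x‖ ^ 2 * ‖P.e j v‖ ^ 2 := by
        refine mul_le_mul_of_nonneg_left (Finset.sum_le_sum (fun j _ => ?_)) hη
        rw [← mul_pow]
        exact pow_le_pow_left₀ (norm_nonneg _) (x.le_opNorm _) 2
    _ = η * (‖x‖ * ‖v‖) ^ 2 := by rw [← Finset.mul_sum, P.norm_sq_sum]; ring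

lemma sum_norm_sq_cross {q x : H →L[ℂ] H} {P0 P : Part A} {η : ℝ} (hη : 0 ≤ η)
    (hsm : SmallOn q P0 η) (hP : P0 ≤ P) {r : ℕ} [NeZero r] (w : Fin r → H) :
    ∑ j, ∑ i, ‖q (P.e j (x (w i)))‖ ^ 2 ≤ η * ‖x‖ ^ 2 * ∑ i, ‖w i‖ ^ 2 := by
  calc ∑ j, ∑ i, ‖q (P.e j (x (w i)))‖ ^ 2
      ≤ ∑ j, ∑ i, η * ‖P.e j (x (w i))‖ ^ 2 :=
        Finset.sum_le_sum (fun j _ => Finset.sum_le_sum (fun i _ => hsm P hP j _))
    _ = η * ∑ i, ‖x (w i)‖ ^ 2 := by
        rw [Finset.sum_comm]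
        simp only [← Finset.mul_sum, P.norm_sq_sum]
    _ ≤ η * ∑ i, ‖x‖ ^ 2 * ‖w i‖ ^ 2 := by
        refine mul_le_mul_of_nonneg_left (Finset.sum_le_sum (fun j _ => ?_)) hη
        rw [← mul_pow]
        exact pow_le_pow_left₀ (norm_nonneg _) (x.le_opNorm _) 2
    _ = _ := by rw [← Finset.mul_sum, mul_assoc]

/-- One colouring makes both the null block and the cross block small on given vectors. -/
lemma exists_colour {r : ℕ} [NeZero r] {q x : H →L[ℂ] H} {P0 P : Part A} {η : ℝ} (hη : 0 ≤ η)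
    (hsm : SmallOn q P0 η) (hP : P0 ≤ P) (g : Fin r → (H →L[ℂ] H))
    (hgp : ∀ i, IsStarProjection (g i)) (hgs : ∑ i, g i = 1) {k : ℕ} (u w : Fin k → H) :
    ∃ c : Fin P.n → Fin r, ∑ l,
      (‖q (((∑ i, P.piece c i * x * P.piece c i) - ((1 / (r : ℝ) : ℝ) : ℂ) • x
          - ((1 - 1 / (r : ℝ) : ℝ) : ℂ) • P.pinch x) (u l))‖ ^ 2
        + ‖q (((∑ i, P.piece c i * x * g i) - ((1 / (r : ℝ) : ℝ) : ℂ) • x) (w l))‖ ^ 2)
      ≤ 6 * η * ‖x‖ ^ 2 * ∑ l, (‖u l‖ ^ 2 + ‖w l‖ ^ 2) := by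
  classical
  set R : ℝ := 1 / (r : ℝ) with hR
  have hR0 : 0 ≤ R := by positivity
  have hR1 : R ≤ 1 := by
    rw [hR, div_le_one (by exact_mod_cast NeZero.pos r)]
    exact_mod_cast NeZero.pos r
  let z : Fin k → Fin P.n × Fin P.n → H := fun l p => q ((P.e p.1 * x * P.e p.2) (u l))
  let y : Fin k → Fin P.n → Fin r → H :=
    fun l j i => q (P.e j (x (g i (w l) - (R : ℂ) • w l)))
  have hrC : (r : ℂ) * (R : ℂ) = 1 := by
    rw [hR]; push_cast
    field_simp [NeZero.ne r]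
  have hy : ∀ l j, ∑ i, y l j i = 0 := by
    intro l j
    have h1 : ∑ i, g i (w l) = w l := by
      simpa [_root_.sum_apply] using DFunLike.congr_fun hgs (w l)
    simp only [y, ← map_sum, Finset.sum_sub_distrib, h1, Finset.sum_const, Finset.card_univ,
      Fintype.card_fin]
    rw [← Nat.cast_smul_eq_nsmul ℂ, smul_smul, hrC, one_smul, sub_self, map_zero, map_zero,
      map_zero]
  have hd : ∀ c : Fin P.n → Fin r, ∀ l,
      q (((∑ i, P.piece c i * x * P.piece c i) - (R : ℂ) • x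
        - ((1 - R : ℝ) : ℂ) • P.pinch x) (u l)) = ∑ p, (sameColour c p : ℂ) • z l p := by
    intro c l
    rw [hR, colour_identity, _root_.sum_apply, map_sum]
    exact Finset.sum_congr rfl (fun p _ => by simp [z])
  have hc : ∀ c : Fin P.n → Fin r, ∀ l,
      q (((∑ i, P.piece c i * x * g i) - (R : ℂ) • x) (w l)) = ∑ j, y l j (c j) := by
    intro c l
    have h1 : (∑ i, P.piece c i * x * g i) - (R : ℂ) • x
        = ∑ j, P.e j * x * (g (c j) - (R : ℂ) • 1) := by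
      have h2 : (∑ j, P.e j * x * g (c j)) = ∑ i, P.piece c i * x * g i := by
        rw [← Finset.sum_fiberwise univ c (fun j => P.e j * x * g (c j))]
        refine Finset.sum_congr rfl (fun i _ => ?_)
        simp only [Part.piece, Finset.sum_mul]
        exact Finset.sum_congr rfl (fun j hj => by rw [(Finset.mem_filter.1 hj).2])
      simp only [mul_sub, Finset.sum_sub_distrib, mul_smul_comm, mul_one, ← Finset.smul_sum,
        ← Finset.sum_mul, P.total, one_mul, h2]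
    rw [h1, _root_.sum_apply, map_sum]
    exact Finset.sum_congr rfl (fun j _ => by simp [y])
  have hne : Nonempty (Fin P.n → Fin r) := ⟨fun _ => 0⟩
  set C : ℝ := (Fintype.card (Fin P.n → Fin r) : ℝ) with hC
  have htot : ∑ c : Fin P.n → Fin r, ∑ l,
      (‖∑ p, (sameColour c p : ℂ) • z l p‖ ^ 2 + ‖∑ j, y l j (c j)‖ ^ 2)
      ≤ C * (6 * η * ‖x‖ ^ 2 * ∑ l, (‖u l‖ ^ 2 + ‖w l‖ ^ 2)) := by
    rw [Finset.sum_comm]
    simp only [Finset.mul_sum]
    refine Finset.sum_le_sum (fun l _ => ?_)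
    rw [Finset.sum_add_distrib]
    have h1 : ∑ c : Fin P.n → Fin r, ‖∑ p, (sameColour c p : ℂ) • z l p‖ ^ 2
        ≤ C * (2 * (η * (‖x‖ * ‖u l‖) ^ 2)) :=
      (sum_sq_norm_sameColour_vec (z l)).trans (mul_le_mul_of_nonneg_left
        (mul_le_mul_of_nonneg_left (sum_norm_sq_offdiag hη hsm hP _) zero_le_two) (by positivity))
    have h2 : ∑ c : Fin P.n → Fin r, ‖∑ j, y l j (c j)‖ ^ 2
        ≤ C * (η * ‖x‖ ^ 2 * (4 * ‖w l‖ ^ 2)) := by
      have h3 := sum_sq_norm_indep (y l) (hy l)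
      have h4 : ∑ i, ‖g i (w l) - (R : ℂ) • w l‖ ^ 2 ≤ (r : ℝ) * (4 * ‖w l‖ ^ 2) := by
        refine (Finset.sum_le_card_nsmul _ _ (4 * ‖w l‖ ^ 2) (fun i _ => ?_)).trans (by simp)
        have h5 : ‖g i (w l) - (R : ℂ) • w l‖ ≤ 2 * ‖w l‖ := by
          refine (norm_sub_le _ _).trans ?_
          rw [norm_smul, Complex.norm_real, Real.norm_of_nonneg hR0]
          nlinarith [proj_norm_le (hgp i) (w l), norm_nonneg (w l)]
        calc ‖g i (w l) - (R : ℂ) • w l‖ ^ 2 ≤ (2 * ‖w l‖) ^ 2 :=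
              pow_le_pow_left₀ (norm_nonneg _) h5 2
          _ = 4 * ‖w l‖ ^ 2 := by ring
      have h6 := sum_norm_sq_cross (x := x) hη hsm hP (fun i => g i (w l) - (R : ℂ) • w l)
      have h7 : η * ‖x‖ ^ 2 * ∑ i, ‖g i (w l) - (R : ℂ) • w l‖ ^ 2
          ≤ η * ‖x‖ ^ 2 * ((r : ℝ) * (4 * ‖w l‖ ^ 2)) :=
        mul_le_mul_of_nonneg_left h4 (by positivity)
      have h8 := mul_le_mul_of_nonneg_left (h6.trans h7) (show 0 ≤ C by positivity)
      refine le_of_mul_le_mul_left ?_ (show (0 : ℝ) < r by exact_mod_cast NeZero.pos r)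
      rw [h3]
      refine h8.trans (le_of_eq ?_)
      ring
    have h9 : 0 ≤ C * (η * ‖x‖ ^ 2) * ‖u l‖ ^ 2 := by positivity
    have h10 : 0 ≤ C * (η * ‖x‖ ^ 2) * ‖w l‖ ^ 2 := by positivity
    have e1 : C * (2 * (η * (‖x‖ * ‖u l‖) ^ 2)) = 2 * (C * (η * ‖x‖ ^ 2) * ‖u l‖ ^ 2) := by ring
    have e2 : C * (η * ‖x‖ ^ 2 * (4 * ‖w l‖ ^ 2)) = 4 * (C * (η * ‖x‖ ^ 2) * ‖w l‖ ^ 2) := by ring
    have e3 : C * (6 * η * ‖x‖ ^ 2 * (‖u l‖ ^ 2 + ‖w l‖ ^ 2))
        = 6 * (C * (η * ‖x‖ ^ 2) * ‖u l‖ ^ 2) + 6 * (C * (η * ‖x‖ ^ 2) * ‖w l‖ ^ 2) := by ring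
    linarith
  obtain ⟨c, -, hcc⟩ := Finset.exists_le_of_sum_le (f := fun c : Fin P.n → Fin r => ∑ l,
      (‖∑ p, (sameColour c p : ℂ) • z l p‖ ^ 2 + ‖∑ j, y l j (c j)‖ ^ 2))
    (g := fun _ => 6 * η * ‖x‖ ^ 2 * ∑ l, (‖u l‖ ^ 2 + ‖w l‖ ^ 2)) Finset.univ_nonempty
    (htot.trans (le_of_eq (by simp [hC])))
  refine ⟨c, le_trans (le_of_eq ?_) hcc⟩
  refine Finset.sum_congr rfl (fun l _ => ?_)
  rw [hd, hc]

include hA in
/-- The algebra of the gluing. -/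
lemma glue_blocks {r : ℕ} {e : H →L[ℂ] H} (he : IsStarProjection e) (heA : e ∈ A)
    (f g : Fin r → (H →L[ℂ] H))
    (hfA : ∀ i, f i ∈ A ∧ IsStarProjection (f i)) (hfo : ∀ i j, i ≠ j → f i * f j = 0)
    (hfs : ∑ i, f i = 1)
    (hg : ∀ i, g i ∈ A ∧ IsStarProjection (g i)) (hgo : ∀ i j, i ≠ j → g i * g j = 0)
    (hgs : ∑ i, g i = 1) {x : H →L[ℂ] H} (hx : IsSelfAdjoint x)
    {a0 a1 : H →L[ℂ] H} (ha0A : a0 ∈ A) (ha0s : IsSelfAdjoint a0) (ha0n : ‖a0‖ ≤ ‖x‖)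
    (ha1A : a1 ∈ A) (ha1s : IsSelfAdjoint a1) (ha1n : ‖a1‖ ≤ ‖x‖) (ha1e : e * a1 = a1)
    {q0 q1 q0' q1' : H →L[ℂ] H} (hq0 : IsStarProjection q0) (hq1 : IsStarProjection q1)
    (hq0' : IsStarProjection q0') (hq1' : IsStarProjection q1')
    (hq0le : q0 * q0' = q0') (hq1le : q1 * q1' = q1') (hq0e : e * q0 = q0)
    (hq1p : (1 - e) * q1 = q1) {R γ ε' κ : ℝ} (hR0 : 0 ≤ R) (hR1 : R ≤ 1) (hγ : 0 ≤ γ)
    (hκ : ‖q0‖ ≤ κ)
    (hW : ‖q1 * ((∑ i, f i * x * f i) - (R : ℂ) • x - ((1 - R : ℝ) : ℂ) • a0) * q1'‖ ≤ γ)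
    (hC : ‖q1 * ((∑ i, f i * x * g i) - (R : ℂ) • x) * q0'‖ ≤ γ)
    (hmid : ‖q0 * ((∑ i, g i * x * g i) - a1) * q0‖ ≤ ε' * ‖x‖) :
    ∃ π : Fin r → (H →L[ℂ] H), (∀ i, π i ∈ A ∧ IsStarProjection (π i)) ∧
      (∀ i j, i ≠ j → π i * π j = 0) ∧ ∑ i, π i = 1 ∧
      ∃ a ∈ A, IsSelfAdjoint a ∧ ‖a‖ ≤ ‖x‖ ∧ IsStarProjection (q1' + q0') ∧
        ‖(q1' + q0') * ((∑ i, π i * x * π i) - a) * (q1' + q0')‖
          ≤ (max ε' R + κ * R) * ‖x‖ + 2 * γ := by
  classical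
  -- supports
  have h1e : (1 - e) * q1' = q1' := by rw [← hq1le, ← mul_assoc, hq1p]
  have he1 : e * q1' = 0 := by
    rw [← h1e, ← mul_assoc, mul_sub, mul_one, he.isIdempotentElem.eq, sub_self, zero_mul]
  have h0e : e * q0' = q0' := by rw [← hq0le, ← mul_assoc, hq0e]
  have h1e' : q1' * (1 - e) = q1' := by
    have := congrArg star h1e
    rwa [star_mul, hq1'.isSelfAdjoint.star_eq, he.one_sub.isSelfAdjoint.star_eq] at this
  have he1' : q1' * e = 0 := by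
    have := congrArg star he1
    rwa [star_mul, star_zero, hq1'.isSelfAdjoint.star_eq, he.isSelfAdjoint.star_eq] at this
  have h0e' : q0' * e = q0' := by
    have := congrArg star h0e
    rwa [star_mul, hq0'.isSelfAdjoint.star_eq, he.isSelfAdjoint.star_eq] at this
  have h01 : q0' * q1' = 0 := by rw [← h0e', mul_assoc, he1, mul_zero]
  have h10 : q1' * q0' = 0 := by rw [← h0e, ← mul_assoc, he1', zero_mul]
  have h1q : q1' * q1 = q1' := by
    have := congrArg star hq1le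
    rwa [star_mul, hq1'.isSelfAdjoint.star_eq, hq1.isSelfAdjoint.star_eq] at this
  have h0q : q0' * q0 = q0' := by
    have := congrArg star hq0le
    rwa [star_mul, hq0'.isSelfAdjoint.star_eq, hq0.isSelfAdjoint.star_eq] at this
  let π : Fin r → (H →L[ℂ] H) := fun i => f i * (1 - e) + g i * e
  have hee : (1 - e) * e = 0 := by rw [sub_mul, one_mul, he.isIdempotentElem.eq, sub_self]
  have hee' : e * (1 - e) = 0 := by rw [mul_sub, mul_one, he.isIdempotentElem.eq, sub_self]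
  have h1eA : 1 - e ∈ A := sub_mem (one_mem A) heA
  have hπmul : ∀ i j, π i * π j
      = f i * f j * (1 - e) + g i * g j * e := by
    intro i j
    have e1 : f i * (1 - e) * (f j * (1 - e))
        = f i * f j * (1 - e) := by
      rw [hA.comm (hfA j).1 h1eA]
      simp only [mul_assoc]
      rw [← mul_assoc (1 - e) (1 - e), he.one_sub.isIdempotentElem.eq,
        ← hA.comm (hfA j).1 h1eA]
    have e2 : g i * e * (g j * e) = g i * g j * e := by
      rw [hA.comm (hg j).1 heA]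
      simp only [mul_assoc]
      rw [← mul_assoc e e, he.isIdempotentElem.eq, ← hA.comm (hg j).1 heA]
    have e3 : f i * (1 - e) * (g j * e) = 0 := by
      rw [hA.comm (hg j).1 heA]
      simp only [mul_assoc]
      rw [← mul_assoc (1 - e) e, hee, zero_mul, mul_zero]
    have e4 : g i * e * (f j * (1 - e)) = 0 := by
      rw [hA.comm (hfA j).1 h1eA]
      simp only [mul_assoc]
      rw [← mul_assoc e (1 - e), hee', zero_mul, mul_zero]
    simp only [π, add_mul, mul_add, e1, e2, e3, e4]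
    abel
  have hπ : ∀ i, π i ∈ A ∧ IsStarProjection (π i) := fun i =>
    ⟨add_mem (mul_mem (hfA i).1 h1eA) (mul_mem (hg i).1 heA), ⟨by
      change π i * π i = π i
      rw [hπmul, (hfA i).2.isIdempotentElem.eq, (hg i).2.isIdempotentElem.eq],
      (hA.mul_proj (hfA i).2 he.one_sub (hfA i).1 h1eA).isSelfAdjoint.add
        (hA.mul_proj (hg i).2 he (hg i).1 heA).isSelfAdjoint⟩⟩
  have hπo : ∀ i j, i ≠ j → π i * π j = 0 := fun i j hij => by
    rw [hπmul, hfo i j hij, hgo i j hij, zero_mul, zero_mul, add_zero]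
  have hπs : ∑ i, π i = 1 := by
    simp only [π, Finset.sum_add_distrib, ← Finset.sum_mul, hfs, hgs, one_mul, sub_add_cancel]
  set a := ((1 - R : ℝ) : ℂ) • (a0 * (1 - e)) + a1 with hadef
  have hS1s : IsSelfAdjoint (((1 - R : ℝ) : ℂ) • (a0 * (1 - e))) := by
    rw [Complex.coe_smul]
    refine IsSelfAdjoint.smul (IsSelfAdjoint.all _) ?_
    change star (a0 * (1 - e)) = a0 * (1 - e)
    rw [star_mul, ha0s.star_eq, he.one_sub.isSelfAdjoint.star_eq, hA.comm h1eA ha0A]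
  have hae : a1 * e = a1 := by rw [hA.comm ha1A heA, ha1e]
  refine ⟨π, hπ, hπo, hπs, a,
    add_mem (A.toSubalgebra.smul_mem (mul_mem ha0A h1eA) _) ha1A, hS1s.add ha1s, ?_, ?_, ?_⟩
  · refine orth_block_norm he.one_sub hee he.one_sub he hee ?_ ?_ ha1e hae (norm_nonneg x) ?_ ha1n
    · rw [mul_smul_comm, hA.comm ha0A h1eA, ← mul_assoc, he.one_sub.isIdempotentElem.eq]
    · rw [smul_mul_assoc, mul_assoc, he.one_sub.isIdempotentElem.eq]
    · rw [norm_smul, Complex.norm_real, Real.norm_of_nonneg (by linarith)]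
      calc (1 - R) * ‖a0 * (1 - e)‖ ≤ 1 * (‖x‖ * 1) := by
            refine mul_le_mul (by linarith) ((norm_mul_le _ _).trans ?_) (norm_nonneg _) zero_le_one
            exact mul_le_mul ha0n (proj_opNorm_le he.one_sub) (norm_nonneg _)
              (norm_nonneg _)
        _ = ‖x‖ := by ring
  · refine ⟨?_, hq1'.isSelfAdjoint.add hq0'.isSelfAdjoint⟩
    change (q1' + q0') * (q1' + q0') = q1' + q0'
    rw [add_mul, mul_add, mul_add, h10, h01, hq1'.isIdempotentElem.eq, hq0'.isIdempotentElem.eq]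
    abel
  -- the four blocks
  set y := (∑ i, π i * x * π i) - a with hydef
  have hys : IsSelfAdjoint y := by
    refine (isSelfAdjoint_sum _ (fun i _ => ?_)).sub (hS1s.add ha1s)
    simpa [(hπ i).2.isSelfAdjoint.star_eq] using hx.conjugate (π i)
  have l1 : ∀ i, q1' * π i = q1' * f i := fun i => by
    simp only [π, mul_add]
    rw [hA.comm (hfA i).1 h1eA, hA.comm (hg i).1 heA, ← mul_assoc, ← mul_assoc, h1e', he1',
      zero_mul, add_zero]
  have r1 : ∀ i, π i * q1' = f i * q1' := fun i => by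
    simp only [π, add_mul, mul_assoc, h1e, he1, mul_zero, add_zero]
  have l0 : ∀ i, q0' * π i = q0' * g i := fun i => by
    simp only [π, mul_add]
    rw [hA.comm (hfA i).1 h1eA, hA.comm (hg i).1 heA, ← mul_assoc, ← mul_assoc, h0e',
      mul_sub, mul_one, h0e', sub_self, zero_mul, zero_add]
  have r0 : ∀ i, π i * q0' = g i * q0' := fun i => by
    simp only [π, add_mul, mul_assoc, h0e, sub_mul, one_mul, sub_self, mul_zero, zero_add]
  have a11 : q1' * a * q1' = ((1 - R : ℝ) : ℂ) • (q1' * a0 * q1') := by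
    simp only [a, mul_add, add_mul, mul_smul_comm, smul_mul_assoc]
    rw [mul_assoc, mul_assoc a0, h1e, ← hae, mul_assoc, mul_assoc a1, he1, mul_zero, mul_zero,
      add_zero, mul_assoc]
  have a10 : q1' * a * q0' = 0 := by
    have e1 : q1' * a1 = 0 := by rw [← ha1e, ← mul_assoc, he1', zero_mul]
    simp only [a, mul_add, add_mul, mul_smul_comm, smul_mul_assoc, e1, zero_mul, add_zero]
    have e2 : (1 - e) * q0' = 0 := by rw [sub_mul, one_mul, h0e, sub_self]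
    rw [mul_assoc, mul_assoc a0, e2, mul_zero, mul_zero, smul_zero]
  have a00 : q0' * a * q0' = q0' * a1 * q0' := by
    have e2 : (1 - e) * q0' = 0 := by rw [sub_mul, one_mul, h0e, sub_self]
    simp only [a, mul_add, add_mul, mul_smul_comm, smul_mul_assoc]
    rw [mul_assoc, mul_assoc a0, e2, mul_zero, mul_zero, smul_zero, zero_add]
  have y11 : q1' * y * q1' = (R : ℂ) • (q1' * x * q1') + q1' * (q1 * ((∑ i, f i * x * f i) - (R : ℂ) • x - ((1 - R : ℝ) : ℂ) • a0) * q1') := by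
    have e1 : q1' * y * q1' = q1' * (∑ i, f i * x * f i) * q1' - ((1 - R : ℝ) : ℂ) • (q1' * a0 * q1') := by
      rw [hydef, mul_sub, sub_mul, a11]
      congr 1
      simp only [Finset.mul_sum, Finset.sum_mul]
      refine Finset.sum_congr rfl (fun i _ => ?_)
      calc q1' * (π i * x * π i) * q1' = (q1' * π i) * x * (π i * q1') := by
            simp only [mul_assoc]
        _ = (q1' * f i) * x * (f i * q1') := by rw [l1, r1]
        _ = q1' * (f i * x * f i) * q1' := by simp only [mul_assoc]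
    rw [e1, ← mul_assoc q1', ← mul_assoc q1', h1q]
    simp only [mul_sub, sub_mul, mul_smul_comm, smul_mul_assoc]
    abel
  have y10 : q1' * y * q0' = (R : ℂ) • (q1' * x * q0') + q1' * (q1 * ((∑ i, f i * x * g i) - (R : ℂ) • x) * q0') := by
    have e1 : q1' * y * q0' = q1' * (∑ i, f i * x * g i) * q0' := by
      rw [hydef, mul_sub, sub_mul, a10, sub_zero]
      simp only [Finset.mul_sum, Finset.sum_mul]
      refine Finset.sum_congr rfl (fun i _ => ?_)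
      calc q1' * (π i * x * π i) * q0' = (q1' * π i) * x * (π i * q0') := by
            simp only [mul_assoc]
        _ = (q1' * f i) * x * (g i * q0') := by rw [l1, r0]
        _ = q1' * (f i * x * g i) * q0' := by simp only [mul_assoc]
    rw [e1, ← mul_assoc q1', ← mul_assoc q1', h1q]
    simp only [mul_sub, sub_mul, mul_smul_comm, smul_mul_assoc]
    abel
  have y00 : q0' * y * q0' = q0' * (q0 * ((∑ i, g i * x * g i) - a1) * q0) * q0' := by
    have e1 : q0' * y * q0' = q0' * ((∑ i, g i * x * g i) - a1) * q0' := by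
      rw [hydef, mul_sub, sub_mul, a00, mul_sub, sub_mul]
      congr 1
      simp only [Finset.mul_sum, Finset.sum_mul]
      refine Finset.sum_congr rfl (fun i _ => ?_)
      calc q0' * (π i * x * π i) * q0' = (q0' * π i) * x * (π i * q0') := by
            simp only [mul_assoc]
        _ = (q0' * g i) * x * (g i * q0') := by rw [l0, r0]
        _ = q0' * (g i * x * g i) * q0' := by simp only [mul_assoc]
    rw [e1]
    calc q0' * ((∑ i, g i * x * g i) - a1) * q0'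
        = (q0' * q0) * ((∑ i, g i * x * g i) - a1) * (q0 * q0') := by rw [h0q, hq0le]
      _ = _ := by simp only [mul_assoc]
  have y01 : q0' * y * q1' = star (q1' * y * q0') := by
    simp [star_mul, hys.star_eq, hq0'.isSelfAdjoint.star_eq, hq1'.isSelfAdjoint.star_eq, mul_assoc]
  have hsplit : (q1' + q0') * y * (q1' + q0')
      = (q1' * y * q1' + q0' * y * q0') + (q1' * y * q0' + q0' * y * q1') := by
    simp only [add_mul, mul_add]; abel
  rw [hsplit]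
  have hRx : ∀ T : H →L[ℂ] H, ‖(R : ℂ) • T‖ = R * ‖T‖ := fun T => by
    rw [norm_smul, Complex.norm_real, Real.norm_of_nonneg hR0]
  have hκ0 : 0 ≤ κ := (norm_nonneg q0).trans hκ
  have hcut : ∀ {p T : H →L[ℂ] H}, IsStarProjection p → ‖p * T‖ ≤ ‖T‖ := fun {p T} hp =>
    (norm_mul_le _ _).trans (mul_le_of_le_one_left (norm_nonneg _) (proj_opNorm_le hp))
  have b11 : ‖q1' * y * q1'‖ ≤ max ε' R * ‖x‖ + γ := by
    rw [y11]
    refine (norm_add_le _ _).trans (add_le_add ?_ ((hcut hq1').trans hW))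
    rw [hRx]
    exact mul_le_mul (le_max_right _ _) (conj_norm_le hq1' hq1' x) (norm_nonneg _)
      (hR0.trans (le_max_right _ _))
  have b00 : ‖q0' * y * q0'‖ ≤ max ε' R * ‖x‖ + γ := by
    rw [y00]
    refine ((conj_norm_le hq0' hq0' _).trans hmid).trans ?_
    linarith [mul_le_mul_of_nonneg_right (le_max_left ε' R) (norm_nonneg x)]
  have b10 : ‖q1' * y * q0'‖ ≤ κ * R * ‖x‖ + γ := by
    rw [y10]
    refine (norm_add_le _ _).trans (add_le_add ?_ ((hcut hq1').trans hC))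
    rw [hRx, mul_comm κ R, mul_assoc R]
    refine mul_le_mul_of_nonneg_left ?_ hR0
    calc ‖q1' * x * q0'‖ = ‖(q1' * x * q0) * q0'‖ := by rw [mul_assoc _ q0, hq0le]
      _ ≤ ‖q1' * x‖ * ‖q0‖ * ‖q0'‖ := (norm_mul_le _ _).trans
          (mul_le_mul_of_nonneg_right (norm_mul_le _ _) (norm_nonneg _))
      _ ≤ ‖x‖ * κ * 1 := mul_le_mul (mul_le_mul (hcut hq1') hκ (norm_nonneg _) (norm_nonneg _))
          (proj_opNorm_le hq0') (norm_nonneg _) (by positivity)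
      _ = κ * ‖x‖ := by ring
  have hc1 : 0 ≤ max ε' R * ‖x‖ + γ := (norm_nonneg _).trans b11
  have hc2 : 0 ≤ κ * R * ‖x‖ + γ := by positivity
  have n1 := orth_block_norm hq1' h10 hq1' hq0' h10
    (S := q1' * y * q1') (T := q0' * y * q0')
    (by rw [← mul_assoc, ← mul_assoc, hq1'.isIdempotentElem.eq])
    (by rw [mul_assoc, hq1'.isIdempotentElem.eq])
    (by rw [← mul_assoc, ← mul_assoc, hq0'.isIdempotentElem.eq])
    (by rw [mul_assoc, hq0'.isIdempotentElem.eq]) hc1 b11 b00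
  have n2 := orth_block_norm hq1' h10 hq0' hq1' h01
    (S := q1' * y * q0') (T := q0' * y * q1')
    (by rw [← mul_assoc, ← mul_assoc, hq1'.isIdempotentElem.eq])
    (by rw [mul_assoc, hq0'.isIdempotentElem.eq])
    (by rw [← mul_assoc, ← mul_assoc, hq0'.isIdempotentElem.eq])
    (by rw [mul_assoc, hq1'.isIdempotentElem.eq]) hc2 b10
    (by rw [y01, norm_star]; exact b10)
  refine (norm_add_le _ _).trans ((add_le_add n1 n2).trans (le_of_eq ?_))
  ring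

include hA in
/-- Gluing: a paving below `eProj` extends to a paving of `x`. -/
lemma exists_glued {r : ℕ} [NeZero r] (g : Fin r → (H →L[ℂ] H))
    (hg : ∀ i, g i ∈ A ∧ IsStarProjection (g i)) (hgo : ∀ i j, i ≠ j → g i * g j = 0)
    (hgs : ∑ i, g i = 1) {x : H →L[ℂ] H} (hxM : x ∈ M) (hx : IsSelfAdjoint x) (hx0 : x ≠ 0)
    {q0 : H →L[ℂ] H} (hq0 : IsStarProjection q0) (hq0M : q0 ∈ M) (hq0e : eProj hA * q0 = q0)
    {a1 : H →L[ℂ] H} (ha1A : a1 ∈ A) (ha1s : IsSelfAdjoint a1) (ha1n : ‖a1‖ ≤ ‖x‖)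
    (ha1e : eProj hA * a1 = a1) {ε' κ ε : ℝ} (hκ : ‖q0‖ ≤ κ)
    (hslack : max ε' (1 / (r : ℝ)) + κ * (1 / (r : ℝ)) < ε) (F : Finset H) {δ : ℝ} (hδ : 0 < δ)
    (hF0 : ∀ ξ ∈ F, ‖(eProj hA - q0) ξ‖ ≤ δ / 4)
    (hmid : ‖q0 * ((∑ i, g i * x * g i) - a1) * q0‖ ≤ ε' * ‖x‖) :
    ∃ p : Fin r → (H →L[ℂ] H), (∀ i, p i ∈ A ∧ IsStarProjection (p i)) ∧
      (∀ i j, i ≠ j → p i * p j = 0) ∧ ∑ i, p i = 1 ∧
      ∃ a ∈ A, IsSelfAdjoint a ∧ ‖a‖ ≤ ‖x‖ ∧
        ∃ q : H →L[ℂ] H, q ∈ M ∧ IsStarProjection q ∧ (∀ ξ ∈ F, ‖(1 - q) ξ‖ < δ) ∧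
          ‖q * ((∑ i, p i * x * p i) - a) * q‖ ≤ ε * ‖x‖ := by
  classical
  set e := eProj hA with he_def
  have he : IsStarProjection e := eProj_proj hA
  have heA : e ∈ A := eProj_mem hA
  set R : ℝ := 1 / (r : ℝ) with hR
  have hR0 : 0 ≤ R := by positivity
  have hR1 : R ≤ 1 := by
    rw [hR, div_le_one (by exact_mod_cast NeZero.pos r)]
    exact_mod_cast NeZero.pos r
  have hxn : 0 < ‖x‖ := norm_pos_iff.2 hx0
  set γ : ℝ := (ε - (max ε' R + κ * R)) * ‖x‖ / 2 with hγdef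
  have hγ : 0 < γ := by have := sub_pos.2 hslack; positivity
  set S : ℝ := ∑ ξ ∈ F, ‖ξ‖ ^ 2 with hSdef
  have hS0 : 0 ≤ S := Finset.sum_nonneg (fun _ _ => sq_nonneg _)
  set s : ℝ := (γ * δ / 8) ^ 2 with hs_def
  have hs : 0 < s := by positivity
  set η : ℝ := s / (200 * ((‖x‖ ^ 2 + 1) * (S + 1))) with hηdef
  have hη : 0 < η := by positivity
  have hηS : 200 * η * ‖x‖ ^ 2 * S ≤ s := by
    have h1 : ‖x‖ ^ 2 * S ≤ (‖x‖ ^ 2 + 1) * (S + 1) := by nlinarith [sq_nonneg ‖x‖]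
    calc 200 * η * ‖x‖ ^ 2 * S ≤ 200 * η * ((‖x‖ ^ 2 + 1) * (S + 1)) := by
          rw [mul_assoc (200 * η)]
          exact mul_le_mul_of_nonneg_left h1 (by positivity)
      _ = s := by rw [hηdef]; field_simp
  obtain ⟨q1, hq1, hq1M, hq1p, hq1F, P0, hsm⟩ :=
    exists_small_proj hA F (show 0 < δ / 4 by positivity) hη
  set k := Fintype.card {ξ // ξ ∈ F} with hk
  let φ := Fintype.equivFin {ξ // ξ ∈ F}
  let ξs : Fin k → H := fun l => (φ.symm l).1
  have hξsum : ∑ l, ‖ξs l‖ ^ 2 = S := by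
    rw [hSdef, ← Finset.sum_attach F]
    exact (Equiv.sum_comp φ.symm (fun ξ => ‖(ξ : H)‖ ^ 2))
  let u : Fin k → H := fun l => q1 (ξs l)
  let w : Fin k → H := fun l => q0 (ξs l)
  have huS : ∑ l, ‖u l‖ ^ 2 ≤ S := hξsum ▸ Finset.sum_le_sum (fun l _ =>
    pow_le_pow_left₀ (norm_nonneg _) (proj_norm_le hq1 _) 2)
  have hwS : ∑ l, ‖w l‖ ^ 2 ≤ S := hξsum ▸ Finset.sum_le_sum (fun l _ =>
    pow_le_pow_left₀ (norm_nonneg _) (proj_norm_le hq0 _) 2)
  obtain ⟨P, hP, hres⟩ := exists_residual hA hq1 hη.le hsm x u (half_pos (half_pos hs))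
  obtain ⟨c, hcol⟩ := exists_colour (x := x) hη.le hsm hP g (fun i => (hg i).2) hgs u w
  obtain ⟨hpA, hpo, hps⟩ := P.piece_props c
  rw [← hR] at hcol
  set Sc := ∑ i, P.piece c i * x * P.piece c i with hSc
  set a0 := plim hA x with ha0
  have ha0A : a0 ∈ A := plim_mem hA hxM
  set W := q1 * (Sc - (R : ℂ) • x - ((1 - R : ℝ) : ℂ) • a0) with hWdef
  set C := q1 * ((∑ i, P.piece c i * x * g i) - (R : ℂ) • x) with hCdef
  have hsmulM : ∀ (z : ℂ) {T : H →L[ℂ] H}, T ∈ M → z • T ∈ M := fun z T hT =>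
    mem_vna_of_commute (fun y hy => by
      rw [mul_smul_comm, smul_mul_assoc, commute_of_mem_centralizer hT hy])
  have hScM : Sc ∈ M := sum_mem (fun i _ =>
    mul_mem (mul_mem (hA.mem_M (hpA i).1) hxM) (hA.mem_M (hpA i).1))
  have hWM : W ∈ M :=
    mul_mem hq1M (sub_mem (sub_mem hScM (hsmulM _ hxM)) (hsmulM _ (hA.mem_M ha0A)))
  have hCM : C ∈ M := mul_mem hq1M (sub_mem (sum_mem (fun i _ =>
    mul_mem (mul_mem (hA.mem_M (hpA i).1) hxM) (hA.mem_M (hg i).1))) (hsmulM _ hxM))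
  -- the vectors are small
  have hWC : ∀ l, ‖W (u l)‖ ≤ γ * (δ / 8) ∧ ‖C (w l)‖ ≤ γ * (δ / 8) := by
    intro l
    set D := q1 ((Sc - (R : ℂ) • x - ((1 - R : ℝ) : ℂ) • P.pinch x) (u l)) with hD
    set E := q1 ((P.pinch x - a0) (u l)) with hE
    have hWe : W (u l) = D + ((1 - R : ℝ) : ℂ) • E := by
      rw [hD, hE, ← map_smul, ← map_add, hWdef]
      refine congrArg q1 ?_
      simp only [sub_apply, smul_apply, smul_sub]
      exact (sub_add_sub_cancel _ _ _).symm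
    have h1 : ‖E‖ ^ 2 ≤ 32 * η * ‖x‖ ^ 2 * (∑ l, ‖u l‖ ^ 2) + s / 2 / 2 :=
      le_trans (Finset.single_le_sum (f := fun l => ‖q1 ((P.pinch x - a0) (u l))‖ ^ 2)
        (fun _ _ => sq_nonneg _) (Finset.mem_univ l)) hres
    have h2 : ‖D‖ ^ 2 + ‖C (w l)‖ ^ 2 ≤ 6 * η * ‖x‖ ^ 2 * ∑ l, (‖u l‖ ^ 2 + ‖w l‖ ^ 2) :=
      le_trans (Finset.single_le_sum (f := fun l =>
        ‖q1 ((Sc - (R : ℂ) • x - ((1 - R : ℝ) : ℂ) • P.pinch x) (u l))‖ ^ 2 + ‖C (w l)‖ ^ 2)
        (fun _ _ => by positivity) (Finset.mem_univ l)) hcol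
    have hηx : 0 ≤ η * ‖x‖ ^ 2 := by positivity
    have h3 := mul_le_mul_of_nonneg_left huS hηx
    have h4 : η * ‖x‖ ^ 2 * ∑ l, (‖u l‖ ^ 2 + ‖w l‖ ^ 2) ≤ η * ‖x‖ ^ 2 * (2 * S) :=
      mul_le_mul_of_nonneg_left (by rw [Finset.sum_add_distrib]; linarith) hηx
    have h5 : ‖W (u l)‖ ≤ ‖D‖ + ‖E‖ := by
      rw [hWe]
      refine (norm_add_le _ _).trans (add_le_add le_rfl ?_)
      rw [norm_smul, Complex.norm_real, Real.norm_of_nonneg (by linarith)]
      exact mul_le_of_le_one_left (norm_nonneg _) (by linarith)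
    have hC0 := sq_nonneg ‖C (w l)‖
    have hD0 := sq_nonneg ‖D‖
    have hηS0 : 0 ≤ η * ‖x‖ ^ 2 * S := by positivity
    constructor
    · refine (sq_le_sq₀ (norm_nonneg _) (by positivity)).1 ?_
      have h6 : ‖W (u l)‖ ^ 2 ≤ 2 * ‖D‖ ^ 2 + 2 * ‖E‖ ^ 2 :=
        (pow_le_pow_left₀ (norm_nonneg _) h5 2).trans
          (by nlinarith [sq_nonneg (‖D‖ - ‖E‖)])
      have h7 : (γ * (δ / 8)) ^ 2 = s := by rw [hs_def]; ring
      rw [h7]
      linarith
    · refine (sq_le_sq₀ (norm_nonneg _) (by positivity)).1 ?_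
      have h7 : (γ * (δ / 8)) ^ 2 = s := by rw [hs_def]; ring
      rw [h7]
      linarith
  obtain ⟨q1', hq1', hq1'M, hq1le, hW, hq1near⟩ := exists_small_subproj hq1 hq1M hWM hγ
  obtain ⟨q0', hq0', hq0'M, hq0le, hC, hq0near⟩ := exists_small_subproj hq0 hq0M hCM hγ
  obtain ⟨π, hπ, hπo, hπs, a, haA, has, han, hqq, hnorm⟩ := glue_blocks hA he heA (P.piece c) g
    hpA hpo hps hg hgo hgs hx ha0A (plim_isSelfAdjoint hA hx) (plim_norm_le hA x) ha1A ha1s ha1n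
    ha1e hq0 hq1 hq0' hq1' hq0le hq1le hq0e hq1p hR0 hR1 hγ.le hκ hW hC hmid
  refine ⟨π, hπ, hπo, hπs, a, haA, has, han, q1' + q0', add_mem hq1'M hq0'M, hqq,
    fun ξ hξ => ?_, hnorm.trans (le_of_eq (by rw [hγdef]; ring))⟩
  obtain ⟨l, hl⟩ : ∃ l, ξs l = ξ := ⟨φ ⟨ξ, hξ⟩, by simp [ξs]⟩
  have h1 := hq1near ξ
  have h2 := hq0near ξ
  have hu : ‖W (q1 ξ)‖ ≤ γ * (δ / 8) := by rw [← hl]; exact (hWC l).1
  have hw : ‖C (q0 ξ)‖ ≤ γ * (δ / 8) := by rw [← hl]; exact (hWC l).2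
  have h3 : ‖(q1 - q1') ξ‖ ≤ δ / 8 := le_of_mul_le_mul_left (h1.trans hu) hγ
  have h4 : ‖(q0 - q0') ξ‖ ≤ δ / 8 := le_of_mul_le_mul_left (h2.trans hw) hγ
  have h5 : (1 - (q1' + q0')) ξ
      = (1 - e - q1) ξ + (q1 - q1') ξ + ((e - q0) ξ + (q0 - q0') ξ) := by
    simp only [← add_apply]
    congr 1
    abel
  rw [h5]
  refine (norm_add_le _ _).trans_lt ?_
  linarith [norm_add_le ((1 - e - q1) ξ) ((q1 - q1') ξ),
    norm_add_le ((e - q0) ξ) ((q0 - q0') ξ), hq1F ξ hξ, hF0 ξ hξ]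

end Vale.Agent.P078.General
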