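import Vale.Agent.P078.General.NormalPart

/-!
# Central normal functionals separate the corner cut out by `eProj`
-/

namespace Vale.Agent.P078.General

open ComplexInnerProductSpace
open Filter Topology

universe u

variable {H : Type u} [NormedAddCommGroup H] [InnerProductSpace ℂ H] [CompleteSpace H]
variable {M : VonNeumannAlgebra H} {A : StarSubalgebra ℂ (H →L[ℂ] H)}

lemma re_inner_symm (v w : H) : (⟪v, w⟫).re = (⟪w, v⟫).re := by
  rw [← inner_conj_symm, Complex.conj_re]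

lemma mem_commutant_star {m : H →L[ℂ] H} (hm : m ∈ Set.centralizer (M : Set (H →L[ℂ] H))) :
    star m ∈ Set.centralizer (M : Set (H →L[ℂ] H)) :=
  Set.star_mem_centralizer' (fun _ hz => star_mem hz) hm

/-- The projection of `M` onto the closure of `M' v`. -/
lemma exists_cyclic_proj (v : H) :
    ∃ g : H →L[ℂ] H, IsStarProjection g ∧ g ∈ M ∧ g v = v ∧
      (∀ h ∈ M, h v = 0 → h * g = 0) ∧ ∀ s ∈ M, s v = v → s * g = g := by
  let W : Submodule ℂ H :=
    (Submodule.span ℂ {z | ∃ m ∈ Set.centralizer (M : Set (H →L[ℂ] H)), z = m v}).topologicalClosure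
  have : CompleteSpace W := Submodule.topologicalClosure.completeSpace _
  have hker : ∀ (T : H →L[ℂ] H), T ∈ M → T v = 0 → ∀ k ∈ W, T k = 0 := by
    intro T hT hTv k hk
    refine Submodule.topologicalClosure_minimal (t := T.ker) _ ?_ T.isClosed_ker hk
    rw [Submodule.span_le]
    rintro _ ⟨m, hm, rfl⟩
    change T (m v) = 0
    have : m (T v) = T (m v) := DFunLike.congr_fun (commute_of_mem_centralizer hT hm) v
    rw [← this, hTv, map_zero]
  have hinv : ∀ m ∈ Set.centralizer (M : Set (H →L[ℂ] H)), ∀ k ∈ W, m k ∈ W := by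
    intro m hm
    have hs : Submodule.span ℂ {z | ∃ m ∈ Set.centralizer (M : Set (H →L[ℂ] H)), z = m v}
        ≤ Submodule.comap (m : H →ₗ[ℂ] H) W := by
      rw [Submodule.span_le]
      rintro _ ⟨m', hm', rfl⟩
      exact Submodule.le_topologicalClosure _
        (Submodule.subset_span ⟨m * m', Set.mul_mem_centralizer hm hm', rfl⟩)
    intro k hk
    exact Submodule.topologicalClosure_minimal (t := Submodule.comap (m : H →ₗ[ℂ] H) W) _ hs
      ((Submodule.isClosed_topologicalClosure _).preimage m.continuous) hk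
  have hgv : W.starProjection v = v := Submodule.starProjection_eq_self_iff.2
    (Submodule.le_topologicalClosure _ (Submodule.subset_span
      ⟨1, Set.one_mem_centralizer, rfl⟩))
  have hgM : W.starProjection ∈ M := mem_vna_of_commute (fun m hm =>
    starProjection_commute W m (hinv m hm) (hinv _ (mem_commutant_star hm)))
  refine ⟨_, isStarProjection_starProjection, hgM, hgv,
    fun h hh hhv => ContinuousLinearMap.ext (fun u =>
      hker h hh hhv _ (W.starProjection_apply_mem u)), fun s hs hsv => ?_⟩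
  rw [← sub_eq_zero, ← one_mul W.starProjection, ← mul_assoc, mul_one, ← sub_mul]
  refine ContinuousLinearMap.ext (fun u => hker _ (sub_mem hs (one_mem M)) ?_ _
    (W.starProjection_apply_mem u))
  simp [hsv]

variable (hA : IsMASAIn M A)

include hA in
/-- The support in `A` of the functional of a vector. -/
lemma exists_support (η : H) :
    ∃ c ∈ A, IsStarProjection c ∧ c η = η ∧
      ∀ y : H →L[ℂ] H, (∀ a ∈ A, a * y = y * a) →
        (∀ m ∈ Set.centralizer (M : Set (H →L[ℂ] H)), m * y = y * m) → y η = 0 → y * c = 0 := by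
  let W : Submodule ℂ H := (Submodule.span ℂ
    {z | ∃ a ∈ A, ∃ m ∈ Set.centralizer (M : Set (H →L[ℂ] H)), z = a (m η)}).topologicalClosure
  have : CompleteSpace W := Submodule.topologicalClosure.completeSpace _
  have hinv : ∀ T : H →L[ℂ] H, (∀ a ∈ A, ∀ m ∈ Set.centralizer (M : Set (H →L[ℂ] H)),
      T (a (m η)) ∈ W) → ∀ k ∈ W, T k ∈ W := by
    intro T hT k hk
    refine Submodule.topologicalClosure_minimal (t := Submodule.comap (T : H →ₗ[ℂ] H) W) _ ?_
      ((Submodule.isClosed_topologicalClosure _).preimage T.continuous) hk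
    rw [Submodule.span_le]
    rintro _ ⟨a, ha, m, hm, rfl⟩
    exact hT a ha m hm
  have hgen : ∀ a ∈ A, ∀ m ∈ Set.centralizer (M : Set (H →L[ℂ] H)), a (m η) ∈ W :=
    fun a ha m hm => Submodule.le_topologicalClosure _
      (Submodule.subset_span ⟨a, ha, m, hm, rfl⟩)
  have hcA : W.starProjection ∈ A := by
    refine hA.proj_mem W (fun a ha => hinv a (fun a' ha' m hm => ?_))
      (fun m hm => hinv m (fun a' ha' m' hm' => ?_))
    · exact hgen (a * a') (mul_mem ha ha') m hm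
    · have e : m (a' (m' η)) = a' (m (m' η)) :=
        DFunLike.congr_fun (commute_of_mem_centralizer (hA.mem_M ha') hm) (m' η)
      rw [e]
      exact hgen a' ha' (m * m') (Set.mul_mem_centralizer hm hm')
  refine ⟨_, hcA, isStarProjection_starProjection,
    Submodule.starProjection_eq_self_iff.2 (hgen 1 (one_mem A) 1 Set.one_mem_centralizer),
    fun y hyA hyM hy => ContinuousLinearMap.ext (fun u => ?_)⟩
  refine Submodule.topologicalClosure_minimal (t := y.ker) _ ?_ y.isClosed_ker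
    (W.starProjection_apply_mem u)
  rw [Submodule.span_le]
  rintro _ ⟨a, ha, m, hm, rfl⟩
  change y (a (m η)) = 0
  have e1 : a (y (m η)) = y (a (m η)) := DFunLike.congr_fun (hyA a ha) (m η)
  have e2 : m (y η) = y (m η) := DFunLike.congr_fun (hyM m hm) η
  rw [← e1, ← e2, hy, map_zero, map_zero]

/-- `phi` is faithful on positive elements below `eProj * c`. -/
lemma phi_faithful {η : H} {c : H →L[ℂ] H} (hcA : c ∈ A)
    (hcfaith : ∀ y : H →L[ℂ] H, (∀ a ∈ A, a * y = y * a) →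
      (∀ m ∈ Set.centralizer (M : Set (H →L[ℂ] H)), m * y = y * m) → y η = 0 → y * c = 0)
    {h : H →L[ℂ] H} (hhM : h ∈ M) (hh : IsSelfAdjoint h) (hhp : ∀ v, 0 ≤ (⟪h v, v⟫).re)
    (hhe : h * eProj hA = h) (hhc : h * c = h) (h0 : (phi hA η h).re = 0) : h = 0 := by
  have hp : ∀ v, 0 ≤ (⟪plim hA h v, v⟫).re := fun v => by
    refine ge_of_tendsto' ((Complex.continuous_re.tendsto _).comp (tendsto_plim hA h v v))
      (fun P => ?_)
    simp only [Function.comp_apply, pinch_inner_self, Complex.re_sum]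
    exact Finset.sum_nonneg (fun j _ => hhp _)
  have h1 : plim hA h η = 0 := by
    refine eq_zero_of_inner_eq_zero (plim_isSelfAdjoint hA hh) hp ?_
    rw [re_inner_symm]
    exact h0
  have h2 : plim hA h * c = 0 := hcfaith _ (fun a ha => plim_comm hA h ha)
    (fun m hm => plim_comm_centralizer hA hhM hm) h1
  have h3 : plim hA h = 0 := by rw [← hhc, plim_mul_right hA hcA, h2]
  have hN : IsNull hA h := ⟨hhM, hh, hhp, fun v => by
    have := (Complex.continuous_re.tendsto _).comp (tendsto_plim hA h v v)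
    rw [h3, zero_apply, inner_zero_left, Complex.zero_re] at this
    exact this⟩
  rw [← hhe]
  exact hN.mul_eProj

/-- A positive feasible element for the exhaustion. -/
structure Feas (g : H →L[ℂ] H) (v η : H) (b : H →L[ℂ] H) : Prop where
  mem : b ∈ M
  sa : IsSelfAdjoint b
  pos : ∀ u, 0 ≤ (⟪b u, u⟫).re
  le : ∀ u, (⟪b u, u⟫).re ≤ (⟪g u, u⟫).re
  ineq : (⟪b v, v⟫).re ≤ (phi hA η b).re

variable {hA}

lemma Feas.norm_le {g b : H →L[ℂ] H} {v η : H} (hb : Feas hA g v η b) (hg : IsStarProjection g) :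
    ‖b‖ ≤ 1 := by
  rw [ContinuousLinearMap.norm_eq_iSup_rayleighQuotient _ hb.sa.isSymmetric]
  refine ciSup_le (fun u => ?_)
  rcases eq_or_ne u 0 with rfl | hu
  · simp [ContinuousLinearMap.rayleighQuotient, ContinuousLinearMap.reApplyInnerSelf]
  rw [ContinuousLinearMap.rayleighQuotient, ContinuousLinearMap.reApplyInnerSelf_apply, abs_div,
    abs_of_nonneg (sq_nonneg ‖u‖), div_le_iff₀ (by positivity), one_mul]
  change |(⟪b u, u⟫).re| ≤ _
  rw [abs_of_nonneg (hb.pos u)]
  refine (hb.le u).trans ((Complex.re_le_norm _).trans ((norm_inner_le_norm _ _).trans ?_))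
  rw [sq]
  exact mul_le_mul_of_nonneg_right (proj_norm_le hg u) (norm_nonneg u)

lemma phi_re_mono {η : H} {S T : H →L[ℂ] H} (h : ∀ u, (⟪S u, u⟫).re ≤ (⟪T u, u⟫).re) :
    (phi hA η S).re ≤ (phi hA η T).re :=
  phi_mono hA η (fun u => by rw [re_inner_symm, re_inner_symm u]; exact h u)

variable (hA)

/-- Sequential exhaustion: a nonzero remainder on which `phi` is dominated by the vector state. -/
lemma exists_dominated {g : H →L[ℂ] H} (hg : IsStarProjection g) (hgM : g ∈ M) {v η : H}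
    (hgv : g v = v) (hsep : ∀ h ∈ M, h v = 0 → h * g = 0)
    (hlt : (phi hA η g).re < ‖v‖ ^ 2) :
    ∃ R : H →L[ℂ] H, R ∈ M ∧ IsSelfAdjoint R ∧ (∀ u, 0 ≤ (⟪R u, u⟫).re) ∧
      (∀ u, (⟪R u, u⟫).re ≤ (⟪g u, u⟫).re) ∧ R ≠ 0 ∧
      ∀ h ∈ M, IsSelfAdjoint h → (∀ u, 0 ≤ (⟪h u, u⟫).re) → ∀ C : ℝ,
        (∀ u, (⟪h u, u⟫).re ≤ C * (⟪R u, u⟫).re) → (phi hA η h).re ≤ (⟪h v, v⟫).re := by
  classical
  have hg0 : ∀ u, 0 ≤ (⟪g u, u⟫).re := fun u => by
    rw [proj_inner_apply hg, re_inner_self]; positivity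
  have hbound : ∀ {b}, Feas hA g v η b → (⟪b v, v⟫).re ≤ ‖v‖ ^ 2 := fun {b} hb => by
    refine (hb.le v).trans (le_of_eq ?_)
    rw [hgv, re_inner_self]
  -- one greedy step
  have hstep : ∀ b, Feas hA g v η b → ∃ b', Feas hA g v η b' ∧
      (∀ u, (⟪b u, u⟫).re ≤ (⟪b' u, u⟫).re) ∧
      ∀ h ∈ M, IsSelfAdjoint h → (∀ u, 0 ≤ (⟪h u, u⟫).re) → Feas hA g v η (b + h) →
        (⟪h v, v⟫).re ≤ (phi hA η h).re →
        (⟪h v, v⟫).re ≤ 2 * ((⟪b' v, v⟫).re - (⟪b v, v⟫).re) := by
    intro b hb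
    set S : Set ℝ := {s | ∃ h ∈ M, IsSelfAdjoint h ∧ (∀ u, 0 ≤ (⟪h u, u⟫).re) ∧
      Feas hA g v η (b + h) ∧ (⟪h v, v⟫).re ≤ (phi hA η h).re ∧ (⟪h v, v⟫).re = s}
    have h0S : (0 : ℝ) ∈ S := ⟨0, zero_mem M, IsSelfAdjoint.zero _, fun u => by simp,
      by rwa [add_zero], by simp, by simp⟩
    have hbdd : BddAbove S := ⟨‖v‖ ^ 2, by
      rintro s ⟨h, -, -, -, hf, -, rfl⟩
      have := hbound hf
      rw [add_apply, inner_add_left, Complex.add_re] at this
      linarith [hb.pos v]⟩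
    rcases le_or_gt (sSup S) 0 with hsup | hsup
    · refine ⟨b, hb, fun u => le_rfl, fun h hh hs hp hf hi => ?_⟩
      have := le_csSup hbdd ⟨h, hh, hs, hp, hf, hi, rfl⟩
      linarith
    · obtain ⟨s, ⟨k, hkM, -, hkp, hkf, -, rfl⟩, hs⟩ :=
        exists_lt_of_lt_csSup ⟨0, h0S⟩ (half_lt_self hsup)
      refine ⟨b + k, hkf, fun u => ?_, fun h hh hs' hp hf hi => ?_⟩
      · rw [add_apply, inner_add_left, Complex.add_re]; linarith [hkp u]
      · have := le_csSup hbdd ⟨h, hh, hs', hp, hf, hi, rfl⟩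
        rw [add_apply, inner_add_left, Complex.add_re]
        linarith
  have hz : Feas hA g v η 0 := ⟨zero_mem M, IsSelfAdjoint.zero _, fun u => by simp,
    fun u => by simpa using hg0 u, by simp⟩
  choose f hf1 hf2 hf3 using hstep
  let sq : ℕ → {b // Feas hA g v η b} :=
    fun n => n.rec ⟨0, hz⟩ (fun _ b => ⟨f b.1 b.2, hf1 b.1 b.2⟩)
  let b : ℕ → (H →L[ℂ] H) := fun n => (sq n).1
  have hb : ∀ n, Feas hA g v η (b n) := fun n => (sq n).2
  have hmono : ∀ u, Monotone (fun n => (⟪b n u, u⟫).re) := fun u =>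
    monotone_nat_of_le_succ (fun n => hf2 (b n) (hb n) u)
  obtain ⟨B, hB⟩ := exists_weak_limit b (fun n => (hb n).norm_le hg)
  have hBre : ∀ u, Tendsto (fun n => (⟪b n u, u⟫).re) (hyperfilter ℕ : Filter ℕ)
      (𝓝 (⟪B u, u⟫).re) := fun u => (Complex.continuous_re.tendsto _).comp (hB u u)
  have hle : ∀ n u, (⟪b n u, u⟫).re ≤ (⟪B u, u⟫).re := fun n u => by
    refine ge_of_tendsto (hBre u) ?_
    filter_upwards [Nat.hyperfilter_le_atTop (eventually_ge_atTop n)] with m hm
    exact hmono u hm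
  have hBM : B ∈ M := weak_limit_mem (fun n => (hb n).mem) hB
  have hBs : IsSelfAdjoint B := weak_limit_sa (fun n => (hb n).sa) hB
  have hBg : ∀ u, (⟪B u, u⟫).re ≤ (⟪g u, u⟫).re := fun u =>
    le_of_tendsto' (hBre u) (fun n => (hb n).le u)
  have hBi : (⟪B v, v⟫).re ≤ (phi hA η B).re :=
    le_of_tendsto' (hBre v) (fun n => (hb n).ineq.trans (phi_re_mono (hle n)))
  have hBf : Feas hA g v η B :=
    ⟨hBM, hBs, fun u => ((hb 0).pos u).trans (hle 0 u), hBg, hBi⟩
  refine ⟨g - B, sub_mem hgM hBM, hg.isSelfAdjoint.sub hBs, fun u => ?_, fun u => ?_,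
    fun h0 => ?_, ?_⟩
  · rw [sub_apply, inner_sub_left, Complex.sub_re]; linarith [hBg u]
  · rw [sub_apply, inner_sub_left, Complex.sub_re]; linarith [hBf.pos u]
  · rw [sub_eq_zero] at h0
    have := hBi
    rw [← h0, hgv, re_inner_self] at this
    linarith
  intro h hhM hh hhp C hC
  by_contra hlt'
  push Not at hlt'
  -- rescale to a feasible increment
  set t : ℝ := 1 / max C 1 with ht
  have ht0 : 0 < t := by positivity
  have htC : ∀ u, t * (⟪h u, u⟫).re ≤ (⟪g u, u⟫).re - (⟪B u, u⟫).re := fun u => by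
    have h1 := hC u
    rw [sub_apply, inner_sub_left, Complex.sub_re] at h1
    rw [ht, one_div, inv_mul_le_iff₀ (by positivity)]
    exact h1.trans (mul_le_mul_of_nonneg_right (le_max_left _ _) (by linarith [hBg u]))
  set h' := (t : ℂ) • h with hh'
  have hre : ∀ u, (⟪h' u, u⟫).re = t * (⟪h u, u⟫).re := fun u => by
    rw [hh', smul_apply, inner_smul_left, Complex.conj_ofReal, Complex.re_ofReal_mul]
  have hphi : (phi hA η h').re = t * (phi hA η h).re := by
    rw [hh', map_smul, smul_eq_mul, Complex.re_ofReal_mul]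
  have hh's : IsSelfAdjoint h' := by
    rw [hh', Complex.coe_smul]; exact IsSelfAdjoint.smul (IsSelfAdjoint.all t) hh
  have hh'p : ∀ u, 0 ≤ (⟪h' u, u⟫).re := fun u => by rw [hre]; exact mul_nonneg ht0.le (hhp u)
  have hi : (⟪h' v, v⟫).re ≤ (phi hA η h').re := by
    rw [hre, hphi]; exact mul_le_mul_of_nonneg_left hlt'.le ht0.le
  have hgap : ∀ n, (⟪h' v, v⟫).re ≤ 2 * ((⟪b (n + 1) v, v⟫).re - (⟪b n v, v⟫).re) := by
    intro n
    refine hf3 (b n) (hb n) h' (smul_mem_vna _ hhM) hh's hh'p ⟨add_mem (hb n).mem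
      (smul_mem_vna _ hhM), (hb n).sa.add hh's, fun u => ?_, fun u => ?_, ?_⟩ hi
    · rw [add_apply, inner_add_left, Complex.add_re]; linarith [(hb n).pos u, hh'p u]
    · rw [add_apply, inner_add_left, Complex.add_re, hre]; linarith [hle n u, htC u]
    · rw [add_apply, inner_add_left, Complex.add_re, map_add, Complex.add_re]
      linarith [(hb n).ineq]
  have hconv : Tendsto (fun n => (⟪b n v, v⟫).re) atTop (𝓝 (⨆ n, (⟪b n v, v⟫).re)) :=
    tendsto_atTop_ciSup (hmono v) ⟨‖v‖ ^ 2, by rintro _ ⟨n, rfl⟩; exact hbound (hb n)⟩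
  have h0 : (⟪h' v, v⟫).re ≤ 0 := by
    refine ge_of_tendsto' (x := atTop) (f := fun n =>
      2 * ((⟪b (n + 1) v, v⟫).re - (⟪b n v, v⟫).re)) ?_ hgap
    simpa using ((hconv.comp (tendsto_add_atTop_nat 1)).sub hconv).const_mul 2
  have hhv : h v = 0 := by
    refine eq_zero_of_inner_eq_zero hh hhp (le_antisymm ?_ (hhp v))
    rw [hre] at h0
    exact nonpos_of_mul_nonpos_right h0 ht0
  have hhg : h * g = 0 := hsep h hhM hhv
  have hh0 : h = 0 := by
    refine ContinuousLinearMap.ext (fun u => ?_)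
    have h1 : g (u - g u) = 0 := by rw [map_sub, proj_apply_apply hg, sub_self]
    have h2 : (⟪h (u - g u), u - g u⟫).re = 0 := by
      refine le_antisymm ?_ (hhp _)
      have h3 := hBf.pos (u - g u)
      have h4 := hBg (u - g u)
      have h5 := hC (u - g u)
      rw [h1, inner_zero_left, Complex.zero_re] at h4
      rw [sub_apply g B, inner_sub_left, Complex.sub_re, h1, inner_zero_left, Complex.zero_re,
        le_antisymm h4 h3, sub_zero, mul_zero] at h5
      exact h5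
    have h6 := eq_zero_of_inner_eq_zero hh hhp h2
    have h7 : h (g u) = 0 := DFunLike.congr_fun hhg u
    rw [map_sub, h7, sub_zero] at h6
    exact h6
  rw [hh0] at hlt'
  simp at hlt'

lemma exists_cut_ne_zero {T : H →L[ℂ] H} (hT : IsSelfAdjoint T)
    (hT0 : ∀ v, 0 ≤ (⟪T v, v⟫).re) (hne : T ≠ 0) (hTM : T ∈ M) :
    ∃ (t : ℝ) (s : H →L[ℂ] H), 0 < t ∧ IsStarProjection s ∧ s ∈ M ∧ s ≠ 0 ∧
      ∀ v, t * ‖s v‖ ^ 2 ≤ (⟪T v, v⟫).re := by
  obtain ⟨u, hu⟩ : ∃ u, 0 < (⟪T u, u⟫).re := by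
    by_contra h
    push Not at h
    exact hne (ContinuousLinearMap.ext (fun u =>
      eq_zero_of_inner_eq_zero hT hT0 (le_antisymm (h u) (hT0 u))))
  set t := (⟪T u, u⟫).re / (2 * (‖u‖ ^ 2 + 1)) with ht
  have ht0 : 0 < t := by positivity
  obtain ⟨s, hs, hsc, hlow, hup, -⟩ := exists_cut hT hT0 ht0
  refine ⟨t, s, ht0, hs, cut_mem hTM hsc, fun h => ?_, hlow⟩
  have h1 := hup u (by rw [h]; rfl)
  have h2 : t * ‖u‖ ^ 2 ≤ (⟪T u, u⟫).re / 2 := by
    calc t * ‖u‖ ^ 2 ≤ t * (‖u‖ ^ 2 + 1) := by linarith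
      _ = _ := by rw [ht]; field_simp
  linarith

lemma eq_mul_of_dominated {S T p : H →L[ℂ] H} {t : ℝ} (ht : 0 < t) (_hp : IsStarProjection p)
    (hle : ∀ v, t * ‖S v‖ ^ 2 ≤ (⟪T v, v⟫).re) (hTp : T * p = T) : S * p = S := by
  refine ContinuousLinearMap.ext (fun v => ?_)
  have h1 : T (v - p v) = 0 := by
    have : T (p v) = T v := DFunLike.congr_fun hTp v
    rw [map_sub, this, sub_self]
  have h2 := hle (v - p v)
  rw [h1, inner_zero_left, Complex.zero_re] at h2
  have h3 : ‖S (v - p v)‖ ^ 2 ≤ 0 := nonpos_of_mul_nonpos_right h2 ht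
  have h4 : S (v - p v) = 0 := by simpa using le_antisymm h3 (sq_nonneg _)
  rw [map_sub, sub_eq_zero] at h4
  exact h4.symm

include hA in
/-- Below `eProj` the central normal functionals separate positive elements. -/
lemma exists_central_normal_ne_zero {T : H →L[ℂ] H} (hTM : T ∈ M) (hTs : IsSelfAdjoint T)
    (hTp : ∀ v, 0 ≤ (⟪T v, v⟫).re) (hTe : T * eProj hA = T) (hT : T ≠ 0) :
    ∃ ψ, IsCentralNormal M A ψ ∧ ψ T ≠ 0 := by
  classical
  obtain ⟨η, hη⟩ : ∃ η, T η ≠ 0 := by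
    by_contra h
    push Not at h
    exact hT (ContinuousLinearMap.ext h)
  obtain ⟨c, hcA, hc, hcη, hcfaith⟩ := exists_support hA η
  set e := eProj hA
  have he : IsStarProjection e := eProj_proj hA
  have heA : e ∈ A := eProj_mem hA
  set h0 := c * T * c with hh0
  have hcM : c ∈ M := hA.mem_M hcA
  have h0M : h0 ∈ M := mul_mem (mul_mem hcM hTM) hcM
  have h0s : IsSelfAdjoint h0 := by simpa [hc.isSelfAdjoint.star_eq] using hTs.conjugate c
  have h0p : ∀ v, 0 ≤ (⟪h0 v, v⟫).re := fun v => by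
    change 0 ≤ (⟪c (T (c v)), v⟫).re
    rw [sa_inner hc.isSelfAdjoint]
    exact hTp _
  have h0ne : h0 ≠ 0 := fun h => hη (eq_zero_of_inner_eq_zero hTs hTp (by
    have h1 : (⟪h0 η, η⟫).re = 0 := by simp [h]
    change (⟪c (T (c η)), η⟫).re = 0 at h1
    rwa [sa_inner hc.isSelfAdjoint, hcη] at h1))
  obtain ⟨t, s, ht, hs, hsM, hsne, hslow⟩ := exists_cut_ne_zero h0s h0p h0ne h0M
  have hsc : s * c = s :=
    eq_mul_of_dominated ht hc hslow (by rw [hh0, mul_assoc, hc.isIdempotentElem.eq])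
  have hse : s * e = s := eq_mul_of_dominated ht he hslow (by
    rw [hh0, mul_assoc, hA.comm hcA heA, mul_assoc c T, ← mul_assoc T, hTe, ← mul_assoc])
  -- a cyclic projection below `s`
  obtain ⟨v0, hv0, hsv0⟩ : ∃ v0, v0 ≠ 0 ∧ s v0 = v0 := by
    by_contra h
    push Not at h
    refine hsne (ContinuousLinearMap.ext (fun w => ?_))
    by_contra hw
    exact h (s w) hw (proj_apply_apply hs w)
  obtain ⟨g, hg, hgM, hgv0, hsep, hle⟩ := exists_cyclic_proj (M := M) v0
  have hsg : s * g = g := hle s hsM hsv0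
  have hgs : g * s = g := by
    have := congrArg star hsg
    rwa [star_mul, hg.isSelfAdjoint.star_eq, hs.isSelfAdjoint.star_eq] at this
  obtain ⟨lam, hlam, hlt⟩ : ∃ lam : ℂ, lam ≠ 0 ∧ (phi hA η g).re < ‖lam • v0‖ ^ 2 := by
    set L : ℝ := Real.sqrt (|(phi hA η g).re| + 1) / ‖v0‖ with hL
    have hn : 0 < ‖v0‖ := norm_pos_iff.2 hv0
    have hL0 : 0 < L := by positivity
    refine ⟨(L : ℂ), by exact_mod_cast hL0.ne', ?_⟩
    rw [norm_smul, Complex.norm_real, Real.norm_of_nonneg hL0.le, hL,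
      div_mul_cancel₀ _ hn.ne', Real.sq_sqrt (by positivity)]
    linarith [le_abs_self (phi hA η g).re]
  set v := lam • v0 with hv
  obtain ⟨R, hRM, hRs, hRp, hRg, hRne, hRdom⟩ := exists_dominated hA hg hgM
    (show g v = v by rw [hv, map_smul, hgv0])
    (fun h hh hhv => hsep h hh (by
      rw [hv, map_smul] at hhv
      exact (smul_eq_zero.1 hhv).resolve_left hlam)) hlt
  obtain ⟨t', g', ht', hg', hg'M, hg'ne, hg'low⟩ := exists_cut_ne_zero hRs hRp hRne hRM
  have hgR : R * g = R := by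
    refine ContinuousLinearMap.ext (fun u => ?_)
    have h1 : g (u - g u) = 0 := by rw [map_sub, proj_apply_apply hg, sub_self]
    have h2 := hRg (u - g u)
    rw [h1, inner_zero_left, Complex.zero_re] at h2
    have h3 := eq_zero_of_inner_eq_zero hRs hRp (le_antisymm h2 (hRp (u - g u)))
    rw [map_sub, sub_eq_zero] at h3
    exact h3.symm
  have hg'g : g' * g = g' := eq_mul_of_dominated ht' hg hg'low hgR
  have hg's : g' * s = g' := by rw [← hg'g, mul_assoc, hgs]
  have hdom : Dom hA η g' := by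
    refine ⟨hg'M, 1, fun _ => g' v, fun y hy => ?_⟩
    have hz : star (y * g') * (y * g') ∈ M :=
      mul_mem (star_mem (mul_mem hy hg'M)) (mul_mem hy hg'M)
    have hform : ∀ u, (⟪(star (y * g') * (y * g')) u, u⟫).re = ‖y (g' u)‖ ^ 2 := fun u => by
      change (⟪star (y * g') ((y * g') u), u⟫).re = _
      rw [ContinuousLinearMap.star_eq_adjoint, ContinuousLinearMap.adjoint_inner_left,
        re_inner_self]
      rfl
    have := hRdom _ hz (IsSelfAdjoint.star_mul_self _) (fun u => by rw [hform]; positivity)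
      (‖y‖ ^ 2 / t') (fun u => by
        rw [hform, div_mul_eq_mul_div, le_div_iff₀ ht']
        calc ‖y (g' u)‖ ^ 2 * t' ≤ (‖y‖ * ‖g' u‖) ^ 2 * t' :=
              mul_le_mul_of_nonneg_right
                (pow_le_pow_left₀ (norm_nonneg _) (y.le_opNorm _) 2) ht'.le
          _ = ‖y‖ ^ 2 * (t' * ‖g' u‖ ^ 2) := by ring
          _ ≤ _ := mul_le_mul_of_nonneg_left (hg'low u) (sq_nonneg _))
    rw [hform] at this
    simpa [phiSq] using this
  obtain ⟨ψ, hψ, hψpos, hψeq⟩ := exists_normal_part hA η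
  refine ⟨ψ, hψ, fun hzero => ?_⟩
  have hgpos : ∀ u, 0 ≤ (⟪g' u, u⟫).re := fun u => by
    rw [proj_inner_apply hg', re_inner_self]; positivity
  -- `phi g' > 0`
  have hg'e : g' * e = g' := by rw [← hg's, mul_assoc, hse]
  have hg'c : g' * c = g' := by rw [← hg's, mul_assoc, hsc]
  have hpos : 0 < (phi hA η g').re := by
    refine lt_of_le_of_ne ?_ (fun h => hg'ne
      (phi_faithful hA hcA hcfaith hg'M hg'.isSelfAdjoint hgpos hg'e hg'c h.symm))
    refine phi_re_nonneg hA η (fun u => ?_)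
    rw [re_inner_symm]; exact hgpos u
  -- compare `g'` with `T`
  have hcut : ∀ u, t * ‖g' u‖ ^ 2 ≤ (⟪h0 u, u⟫).re := fun u => by
    refine le_trans (mul_le_mul_of_nonneg_left (pow_le_pow_left₀ (norm_nonneg _) ?_ 2) ht.le)
      (hslow u)
    have : g' u = g' (s u) := (DFunLike.congr_fun hg's u).symm
    rw [this]
    exact proj_norm_le hg' _
  have h1 : 0 ≤ (ψ (h0 - (t : ℂ) • g')).re := by
    refine hψpos _ (sub_mem h0M (smul_mem_vna _ hg'M)) ?_ (fun u => ?_)
    · rw [Complex.coe_smul]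
      exact h0s.sub (IsSelfAdjoint.smul (IsSelfAdjoint.all t) hg'.isSelfAdjoint)
    · rw [sub_apply, smul_apply, inner_sub_left, inner_smul_left, Complex.conj_ofReal,
        Complex.sub_re, Complex.re_ofReal_mul, proj_inner_apply hg', re_inner_self]
      linarith [hcut u]
  rw [map_sub, map_smul, smul_eq_mul, Complex.sub_re, Complex.re_ofReal_mul,
    hψeq g' hdom hg'.isSelfAdjoint] at h1
  have hrest : 0 ≤ (ψ ((1 - c) * T * (1 - c))).re := by
    have h1cM : 1 - c ∈ M := sub_mem (one_mem M) hcM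
    refine hψpos _ (mul_mem (mul_mem h1cM hTM) h1cM)
      (by simpa [hc.isSelfAdjoint.star_eq] using hTs.conjugate (1 - c)) (fun u => ?_)
    change 0 ≤ (⟪(1 - c) (T ((1 - c) u)), u⟫).re
    rw [sa_inner hc.one_sub.isSelfAdjoint]
    exact hTp _
  have hcen := hψ.2.1
  have e1 : ψ h0 = ψ (T * c) := by
    rw [hh0, mul_assoc, hcen c hcA _ (mul_mem hTM hcM), mul_assoc, hc.isIdempotentElem.eq]
  have e2 : ψ ((1 - c) * T * (1 - c)) = ψ (T * (1 - c)) := by
    rw [mul_assoc, hcen (1 - c) (sub_mem (one_mem A) hcA) _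
      (mul_mem hTM (sub_mem (one_mem M) hcM)), mul_assoc, hc.one_sub.isIdempotentElem.eq]
  have e3 : ψ T = ψ h0 + ψ ((1 - c) * T * (1 - c)) := by
    rw [e1, e2, ← map_add, ← mul_add, add_sub_cancel, mul_one]
  have h4 := congrArg Complex.re e3
  rw [hzero, Complex.zero_re, Complex.add_re] at h4
  have := mul_pos ht hpos
  linarith

end Vale.Agent.P078.General
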