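import Vale.Agent.P078.General.Core
import Vale.Agent.P078.General.Functional

/-!
# The expected corner and the reduction of paving to it
-/

namespace Vale.Agent.P078.General

open ComplexInnerProductSpace
open Filter Topology

universe u

variable {H : Type u} [NormedAddCommGroup H] [InnerProductSpace ℂ H] [CompleteSpace H]
variable {M : VonNeumannAlgebra H} {A : StarSubalgebra ℂ (H →L[ℂ] H)}

/-- Operators defining the corner `e M e + A (1 - e)`. -/
def cornerSet (M : VonNeumannAlgebra H) (A : StarSubalgebra ℂ (H →L[ℂ] H)) (e : H →L[ℂ] H) :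
    Set (H →L[ℂ] H) :=
  Set.centralizer (M : Set (H →L[ℂ] H)) ∪
    ({e} ∪ (fun a => a * (1 - e)) '' Set.centralizer (A : Set (H →L[ℂ] H)))

/-- The corner `e M e + A (1 - e)`. -/
noncomputable def corner (M : VonNeumannAlgebra H) (A : StarSubalgebra ℂ (H →L[ℂ] H))
    (e : H →L[ℂ] H) : VonNeumannAlgebra H where
  toStarSubalgebra := StarSubalgebra.centralizer ℂ (cornerSet M A e)
  centralizer_centralizer' := by
    change Set.centralizer (Set.centralizer
      (StarSubalgebra.centralizer ℂ (cornerSet M A e) : Set (H →L[ℂ] H))) = _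
    rw [StarSubalgebra.coe_centralizer, Set.centralizer_centralizer_centralizer]
    rfl

lemma corner_spec (hA : IsMASAIn M A) {e : H →L[ℂ] H} (he : IsStarProjection e) (heA : e ∈ A)
    (y : H →L[ℂ] H) :
    y ∈ corner M A e ↔ y ∈ M ∧ e * y = y * e ∧
      ∀ a ∈ Set.centralizer (A : Set (H →L[ℂ] H)), a * (1 - e) * y = y * (a * (1 - e)) := by
  change y ∈ StarSubalgebra.centralizer ℂ (cornerSet M A e) ↔ _
  rw [StarSubalgebra.mem_centralizer_iff]
  refine ⟨fun h => ⟨mem_vna_of_commute (fun m hm => (h m (Or.inl hm)).1),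
    (h e (Or.inr (Or.inl rfl))).1,
    fun a ha => (h _ (Or.inr (Or.inr ⟨a, ha, rfl⟩))).1⟩, ?_⟩
  rintro ⟨hyM, hye, hya⟩ g (hg | rfl | ⟨a, ha, rfl⟩)
  · exact ⟨commute_of_mem_centralizer hyM hg,
      commute_of_mem_centralizer hyM (mem_commutant_star hg)⟩
  · exact ⟨hye, by rw [he.isSelfAdjoint.star_eq]; exact hye⟩
  · refine ⟨hya a ha, ?_⟩
    have hs : star a ∈ Set.centralizer (A : Set (H →L[ℂ] H)) :=
      Set.star_mem_centralizer' (fun _ hz => star_mem hz) ha
    have hc : (1 - e) * star a = star a * (1 - e) := hs _ (sub_mem (one_mem A) heA)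
    rw [star_mul, he.one_sub.isSelfAdjoint.star_eq, hc]
    exact hya _ hs

lemma mem_centralizer_of_mem (hA : IsMASAIn M A) {a : H →L[ℂ] H} (ha : a ∈ A) :
    a ∈ Set.centralizer (A : Set (H →L[ℂ] H)) := fun b hb => hA.comm hb ha

lemma mem_corner_of_mem (hA : IsMASAIn M A) {e : H →L[ℂ] H} (he : IsStarProjection e)
    (heA : e ∈ A) {a : H →L[ℂ] H} (ha : a ∈ A) : a ∈ corner M A e := by
  refine (corner_spec hA he heA a).2 ⟨hA.mem_M ha, hA.comm heA ha, fun b hb => ?_⟩
  have h1 : a * b = b * a := hb a ha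
  rw [mul_assoc, hA.comm (sub_mem (one_mem A) heA) ha, ← mul_assoc, ← h1, mul_assoc]

lemma corner_isMASA (hA : IsMASAIn M A) {e : H →L[ℂ] H} (he : IsStarProjection e) (heA : e ∈ A) :
    IsMASAIn (corner M A e) A := by
  refine Set.Subset.antisymm (fun a ha => ⟨mem_centralizer_of_mem hA ha,
    mem_corner_of_mem hA he heA ha⟩) ?_
  rintro y ⟨hyA, hyC⟩
  rw [hA]
  exact ⟨hyA, ((corner_spec hA he heA y).1 hyC).1⟩

lemma conj_mem_corner (hA : IsMASAIn M A) {e : H →L[ℂ] H} (he : IsStarProjection e) (heA : e ∈ A)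
    {x : H →L[ℂ] H} (hx : x ∈ M) : e * x * e ∈ corner M A e := by
  refine (corner_spec hA he heA _).2 ⟨mul_mem (mul_mem (hA.mem_M heA) hx) (hA.mem_M heA), ?_,
    fun a ha => ?_⟩
  · rw [← mul_assoc, ← mul_assoc, he.isIdempotentElem.eq, mul_assoc (e * x) e e,
      he.isIdempotentElem.eq]
  · have h1 : e * a = a * e := ha e heA
    have h2 : (1 - e) * e = 0 := by rw [sub_mul, one_mul, he.isIdempotentElem.eq, sub_self]
    have h3 : e * (a * (1 - e)) = 0 := by
      rw [← mul_assoc, h1, mul_assoc, mul_sub, mul_one, he.isIdempotentElem.eq, sub_self, mul_zero]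
    have l : a * (1 - e) * (e * x * e) = 0 := by
      simp only [mul_assoc]
      rw [← mul_assoc (1 - e) e, h2, zero_mul, mul_zero]
    have r : e * x * e * (a * (1 - e)) = 0 := by rw [mul_assoc, h3, mul_zero]
    rw [l, r]

lemma mul_one_sub_mem (hA : IsMASAIn M A) {e : H →L[ℂ] H} (he : IsStarProjection e) (heA : e ∈ A)
    {y : H →L[ℂ] H} (hy : y ∈ corner M A e) : y * (1 - e) ∈ A := by
  obtain ⟨hyM, -, hya⟩ := (corner_spec hA he heA y).1 hy
  refine hA.mem_of_commute (fun a ha => ?_) (fun m hm =>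
    commute_of_mem_centralizer (mul_mem hyM (hA.mem_M (sub_mem (one_mem A) heA))) hm)
  have h1 := hya a (mem_centralizer_of_mem hA ha)
  have h2 := hya 1 Set.one_mem_centralizer
  rw [one_mul] at h2
  calc a * (y * (1 - e)) = a * ((1 - e) * y) := by rw [h2]
    _ = a * (1 - e) * y := by rw [mul_assoc]
    _ = y * (a * (1 - e)) := h1
    _ = y * ((1 - e) * a) := by rw [hA.comm ha (sub_mem (one_mem A) heA)]
    _ = y * (1 - e) * a := by rw [mul_assoc]

open ComplexOrder in
lemma corner_expected (hA : IsMASAIn M A) : Expected (corner M A (eProj hA)) A := by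
  set e := eProj hA
  have he : IsStarProjection e := eProj_proj hA
  have heA : e ∈ A := eProj_mem hA
  intro x hx hx0
  obtain ⟨hxM, hxe, -⟩ := (corner_spec hA he heA x).1 hx
  by_cases hp : x * (1 - e) = 0
  · -- supported below `e`
    have hxe' : x * e = x := by rw [mul_sub, mul_one, sub_eq_zero] at hp; exact hp.symm
    set T := star x * x with hT
    have hT0 : T ≠ 0 := fun h => hx0 (CStarRing.star_mul_self_eq_zero_iff x |>.1 h)
    obtain ⟨ψ, hψ, hne⟩ := exists_central_normal_ne_zero hA (mul_mem (star_mem hxM) hxM)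
      (IsSelfAdjoint.star_mul_self x) (fun v => by
        change 0 ≤ (⟪star x (x v), v⟫).re
        rw [ContinuousLinearMap.star_eq_adjoint, ContinuousLinearMap.adjoint_inner_left,
          re_inner_self]
        positivity) (by rw [mul_assoc, hxe']) hT0
    have hle : ∀ z ∈ corner M A e, z ∈ M := fun z hz => ((corner_spec hA he heA z).1 hz).1
    refine ⟨ψ, ⟨fun z hz => hψ.1 z (hle z hz), fun a ha z hz => hψ.2.1 a ha z (hle z hz),
      fun ε hε => ?_⟩, hne⟩
    obtain ⟨n, v, w, h⟩ := hψ.2.2 ε hε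
    exact ⟨n, v, w, fun z hz => h z (hle z hz)⟩
  · -- a vector state
    obtain ⟨u, hu⟩ : ∃ u, (x * (1 - e)) u ≠ 0 := by
      by_contra h
      push Not at h
      exact hp (ContinuousLinearMap.ext h)
    set v := (1 - e) u with hv
    let ψ : (H →L[ℂ] H) →ₗ[ℂ] ℂ :=
      { toFun := fun y => ⟪v, y v⟫
        map_add' := fun y z => by rw [add_apply, inner_add_right]
        map_smul' := fun c y => by
          rw [smul_apply, inner_smul_right, RingHom.id_apply, smul_eq_mul] }
    have hval : ∀ z : H →L[ℂ] H, ψ (star z * z) = ((‖z v‖ ^ 2 : ℝ) : ℂ) := fun z => by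
      change ⟪v, star z (z v)⟫ = _
      rw [ContinuousLinearMap.star_eq_adjoint, ContinuousLinearMap.adjoint_inner_right,
        inner_self_eq_norm_sq_to_K]
      norm_cast
    refine ⟨ψ, ⟨fun z _ => ?_, fun a ha z hz => ?_, fun ε hε => ⟨1, fun _ => v, fun _ => v,
      fun z _ => by simp [ψ]; positivity⟩⟩, ?_⟩
    · rw [hval]; exact Complex.zero_le_real.2 (sq_nonneg _)
    · change ⟪v, a (z v)⟫ = ⟪v, z (a v)⟫
      have h1 : a * (z * (1 - e)) = z * (1 - e) * a :=
        hA.comm ha (mul_one_sub_mem hA he heA hz)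
      have h2 : z * (1 - e) * a = z * a * (1 - e) := by
        rw [mul_assoc, hA.comm (sub_mem (one_mem A) heA) ha, mul_assoc]
      have h3 := DFunLike.congr_fun (h1.trans h2) u
      change a (z ((1 - e) u)) = z (a ((1 - e) u)) at h3
      rw [hv, h3]
    · rw [hval]
      simp only [ne_eq, Complex.ofReal_eq_zero, sq_eq_zero_iff, norm_eq_zero]
      exact hu

open ComplexOrder in
lemma eProj_eq_zero (hA : IsMASAIn M A) (h : Unexpected M A) : eProj hA = 0 := by
  by_contra hne
  set e := eProj hA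
  have he : IsStarProjection e := eProj_proj hA
  have heM : e ∈ M := hA.mem_M (eProj_mem hA)
  obtain ⟨ψ, hψ, hψe⟩ := exists_central_normal_ne_zero hA heM he.isSelfAdjoint
    (fun v => by rw [proj_inner_apply he, re_inner_self]; positivity) he.isIdempotentElem.eq hne
  have h1 : 0 ≤ ψ e := by
    have := hψ.1 e heM
    rwa [he.isSelfAdjoint.star_eq, he.isIdempotentElem.eq] at this
  have h2 : 0 ≤ ψ (1 - e) := by
    have := hψ.1 (1 - e) (sub_mem (one_mem M) heM)
    rwa [he.one_sub.isSelfAdjoint.star_eq, he.one_sub.isIdempotentElem.eq] at this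
  have h3 := h ψ hψ
  rw [← add_sub_cancel e (1 : H →L[ℂ] H), map_add] at h3
  exact hψe ((add_eq_zero_iff_of_nonneg h1 h2).1 h3).1

lemma soPavable_zero (hA : IsMASAIn M A) {ε : ℝ} {r : ℕ} [NeZero r] :
    SoPavableIn M A ε r (0 : H →L[ℂ] H) := by
  intro F δ hδ
  let P : Part A := Classical.arbitrary _
  obtain ⟨hpA, hpo, hps⟩ := P.piece_props (fun _ => (0 : Fin r))
  have _ := hA
  exact ⟨_, hpA, hpo, hps, 0, zero_mem A, IsSelfAdjoint.zero _, by simp, 1, one_mem M,
    IsStarProjection.one _, fun ξ _ => by simpa using hδ, by simp⟩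

/-- No expected part: `r` colours pave with any error above `1 / r`. -/
lemma allPavable_of_unexpected (hA : IsMASAIn M A) (h : Unexpected M A) {ε : ℝ} {r : ℕ}
    (hε : 1 < ε * r) : AllPavable M A ε r := by
  classical
  have hr : 0 < r := by
    rcases Nat.eq_zero_or_pos r with rfl | hr
    · norm_num at hε
    · exact hr
  have : NeZero r := ⟨hr.ne'⟩
  intro x hxM hx
  rcases eq_or_ne x 0 with rfl | hx0
  · exact soPavable_zero hA
  intro F δ hδ
  have he0 := eProj_eq_zero hA h
  let P : Part A := Classical.arbitrary _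
  obtain ⟨hpA, hpo, hps⟩ := P.piece_props (fun _ => (0 : Fin r))
  refine exists_glued hA (P.piece (fun _ => (0 : Fin r))) hpA hpo hps hxM hx hx0
    (q0 := 0) (IsStarProjection.zero _) (zero_mem M) (by simp) (a1 := 0) (zero_mem A)
    (IsSelfAdjoint.zero _) (by simp) (by simp) (ε' := 0) (κ := 0) (ε := ε) (by simp) ?_ F hδ
    (fun ξ _ => by rw [he0]; simp; positivity) (by simp)
  have hrR : (0 : ℝ) < r := by exact_mod_cast hr
  rw [zero_mul, add_zero, max_eq_right (by positivity), div_lt_iff₀ hrR]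
  exact hε

/-- Paving of the expected corner gives paving of the whole inclusion. -/
lemma allPavable_of_corner (hA : IsMASAIn M A) {ε' ε : ℝ} {r : ℕ} [NeZero r]
    (hC : AllPavable (corner M A (eProj hA)) A ε' r)
    (hε : max ε' (1 / (r : ℝ)) + 1 / (r : ℝ) < ε) : AllPavable M A ε r := by
  classical
  set e := eProj hA
  have he : IsStarProjection e := eProj_proj hA
  have heA : e ∈ A := eProj_mem hA
  intro x hxM hx
  rcases eq_or_ne x 0 with rfl | hx0
  · exact soPavable_zero hA
  intro F δ hδ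
  set x1 := e * x * e with hx1
  have hx1s : IsSelfAdjoint x1 := by simpa [he.isSelfAdjoint.star_eq] using hx.conjugate e
  have hx1n : ‖x1‖ ≤ ‖x‖ := conj_norm_le he he x
  obtain ⟨p, hp, hpo, hps, a, haA, has, han, q, hqC, hq, hqF, hn⟩ :=
    hC x1 (conj_mem_corner hA he heA hxM) hx1s (F.image e) (δ / 4) (by positivity)
  obtain ⟨hqM, hqe, -⟩ := (corner_spec hA he heA q).1 hqC
  have hq0 : IsStarProjection (q * e) := by
    refine ⟨?_, ?_⟩
    · change q * e * (q * e) = q * e
      rw [mul_assoc, ← mul_assoc e q, hqe, mul_assoc q e e, he.isIdempotentElem.eq,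
        ← mul_assoc, hq.isIdempotentElem.eq]
    · change star (q * e) = q * e
      rw [star_mul, he.isSelfAdjoint.star_eq, hq.isSelfAdjoint.star_eq, hqe]
  have hec : e * (a * e) = a * e := by
    rw [← mul_assoc, hA.comm heA haA, mul_assoc, he.isIdempotentElem.eq]
  refine exists_glued hA p hp hpo hps hxM hx hx0 hq0 (mul_mem hqM (hA.mem_M heA))
    (by rw [← mul_assoc, hqe, mul_assoc, he.isIdempotentElem.eq]) (a1 := a * e)
    (mul_mem haA heA) ?_ ?_ hec (ε' := max ε' 0) (κ := 1) (proj_opNorm_le hq0) ?_ F hδ ?_ ?_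
  · change star (a * e) = a * e
    rw [star_mul, has.star_eq, he.isSelfAdjoint.star_eq, hA.comm heA haA]
  · calc ‖a * e‖ ≤ ‖a‖ * ‖e‖ := norm_mul_le _ _
      _ ≤ ‖x‖ * 1 := mul_le_mul (han.trans hx1n) (proj_opNorm_le he) (norm_nonneg _) (norm_nonneg _)
      _ = ‖x‖ := mul_one _
  · rw [one_mul, max_assoc, max_eq_right (show (0 : ℝ) ≤ 1 / (r : ℝ) by positivity)]
    exact hε
  · intro ξ hξ
    have h1 := hqF (e ξ) (Finset.mem_image_of_mem _ hξ)
    have e1 : (e - q * e) ξ = (1 - q) (e ξ) := rfl
    rw [e1]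
    exact h1.le
  · have hcut : q * e * ((∑ i, p i * x * p i) - a * e) * (q * e)
        = e * (q * ((∑ i, p i * x1 * p i) - a) * q) * e := by
      have hsum : e * (∑ i, p i * x * p i) * e = e * (∑ i, p i * x1 * p i) * e := by
        simp only [Finset.mul_sum, Finset.sum_mul]
        refine Finset.sum_congr rfl (fun i _ => ?_)
        calc e * (p i * x * p i) * e = (e * p i) * x * (p i * e) := by simp only [mul_assoc]
          _ = (p i * e) * x * (e * p i) := by rw [hA.comm heA (hp i).1]
          _ = (p i * (e * e)) * x * ((e * e) * p i) := by rw [he.isIdempotentElem.eq]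
          _ = (p i * e) * (e * x * e) * (e * p i) := by simp only [mul_assoc]
          _ = (e * p i) * (e * x * e) * (p i * e) := by rw [hA.comm heA (hp i).1]
          _ = e * (p i * (e * x * e) * p i) * e := by simp only [mul_assoc]
      have ha : e * (a * e) * e = e * a * e := by
        rw [← mul_assoc, mul_assoc (e * a), he.isIdempotentElem.eq]
      calc q * e * ((∑ i, p i * x * p i) - a * e) * (q * e)
          = q * (e * ((∑ i, p i * x * p i) - a * e) * e) * q := by
            conv_lhs => arg 2; rw [← hqe]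
            simp only [mul_assoc]
        _ = q * (e * ((∑ i, p i * x1 * p i) - a) * e) * q := by
            simp only [mul_sub, sub_mul, hsum, ha]
        _ = (q * e) * ((∑ i, p i * x1 * p i) - a) * (e * q) := by simp only [mul_assoc]
        _ = (e * q) * ((∑ i, p i * x1 * p i) - a) * (q * e) := by rw [hqe]
        _ = _ := by simp only [mul_assoc]
    rw [hcut]
    refine (conj_norm_le he he _).trans (hn.trans ?_)
    exact (mul_le_mul_of_nonneg_right (le_max_left ε' 0) (norm_nonneg x1)).trans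
      (mul_le_mul_of_nonneg_left hx1n (le_max_right _ _))

lemma AllPavable.pad {ε : ℝ} {r r' : ℕ} (h : AllPavable M A ε r) (hr : r ≤ r') :
    AllPavable M A ε r' := by
  obtain ⟨k, rfl⟩ := Nat.exists_eq_add_of_le hr
  intro x hxM hx F δ hδ
  obtain ⟨p, hp, hpo, hps, a, haA, has, han, q, hqM, hq, hqF, hn⟩ := h x hxM hx F δ hδ
  refine ⟨Fin.append p 0, fun i => ?_, fun i j hij => ?_, ?_, a, haA, has, han, q, hqM, hq, hqF,
    ?_⟩
  · induction i using Fin.addCases with
    | left i => simpa using hp i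
    | right i => simp [zero_mem]
  · induction i using Fin.addCases with
    | left i =>
      induction j using Fin.addCases with
      | left j => simpa using hpo i j (fun h => hij (by rw [h]))
      | right j => simp
    | right i => simp
  · simpa [Fin.sum_univ_add] using hps
  · simpa [Fin.sum_univ_add] using hn

end Vale.Agent.P078.General
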