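import Vale.Agent.P078.General.Normal

/-!
# The positive central form coming from the limit of pinchings
-/

namespace Vale.Agent.P078.General

open ComplexInnerProductSpace
open Filter Topology

universe u

variable {H : Type u} [NormedAddCommGroup H] [InnerProductSpace ℂ H] [CompleteSpace H]
variable {M : VonNeumannAlgebra H} {A : StarSubalgebra ℂ (H →L[ℂ] H)} (hA : IsMASAIn M A) (η : H)

/-- The central positive functional `y ↦ ⟪η, plim y η⟫`. -/
noncomputable def phi : (H →L[ℂ] H) →ₗ[ℂ] ℂ where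
  toFun y := ⟪η, plim hA y η⟫
  map_add' x y := by rw [plim_add, add_apply, inner_add_right]
  map_smul' c x := by
    rw [plim_smul, smul_apply, inner_smul_right, RingHom.id_apply, smul_eq_mul]

/-- The associated squared seminorm. -/
noncomputable def phiSq (z : H →L[ℂ] H) : ℝ := (phi hA η (star z * z)).re

lemma tendsto_phi (y : H →L[ℂ] H) :
    Tendsto (fun P : Part A => ∑ j, ⟪P.e j η, y (P.e j η)⟫) (uf hA) (𝓝 (phi hA η y)) := by
  have h := (Complex.continuous_conj.tendsto _).comp (tendsto_plim hA y η η)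
  rw [inner_conj_symm] at h
  refine h.congr (fun P => ?_)
  simp only [Function.comp_apply]
  rw [inner_conj_symm]
  simp only [Part.pinch, _root_.sum_apply, inner_sum]
  exact Finset.sum_congr rfl (fun j _ => (sa_inner (P.proj j).isSelfAdjoint _ _).symm)

lemma tendsto_phi_mul (z w : H →L[ℂ] H) :
    Tendsto (fun P : Part A => ∑ j, ⟪z (P.e j η), w (P.e j η)⟫) (uf hA)
      (𝓝 (phi hA η (star z * w))) := by
  refine (tendsto_phi hA η (star z * w)).congr (fun P => Finset.sum_congr rfl (fun j _ => ?_))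
  change ⟪P.e j η, star z (w (P.e j η))⟫ = _
  rw [ContinuousLinearMap.star_eq_adjoint, ContinuousLinearMap.adjoint_inner_right]

lemma tendsto_phiSq (z : H →L[ℂ] H) :
    Tendsto (fun P : Part A => ∑ j, ‖z (P.e j η)‖ ^ 2) (uf hA) (𝓝 (phiSq hA η z)) := by
  refine ((Complex.continuous_re.tendsto _).comp (tendsto_phi_mul hA η z z)).congr (fun P => ?_)
  simp only [Function.comp_apply, Complex.re_sum, re_inner_self]

lemma phiSq_nonneg (z : H →L[ℂ] H) : 0 ≤ phiSq hA η z :=
  ge_of_tendsto' (tendsto_phiSq hA η z) (fun _ => Finset.sum_nonneg (fun _ _ => sq_nonneg _))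

lemma phi_cs (z w : H →L[ℂ] H) :
    ‖phi hA η (star z * w)‖ ^ 2 ≤ phiSq hA η z * phiSq hA η w := by
  refine le_of_tendsto_of_tendsto' ((tendsto_phi_mul hA η z w).norm.pow 2)
    ((tendsto_phiSq hA η z).mul (tendsto_phiSq hA η w)) (fun P => ?_)
  refine (pow_le_pow_left₀ (norm_nonneg _) ((norm_sum_le _ _).trans
    (Finset.sum_le_sum (fun j _ => norm_inner_le_norm _ _))) 2).trans ?_
  exact Finset.sum_mul_sq_le_sq_mul_sq _ _ _

lemma phiSq_le {z w : H →L[ℂ] H} {C : ℝ} (h : ∀ v, ‖z v‖ ^ 2 ≤ C * ‖w v‖ ^ 2) :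
    phiSq hA η z ≤ C * phiSq hA η w := by
  refine le_of_tendsto_of_tendsto' (tendsto_phiSq hA η z) ((tendsto_phiSq hA η w).const_mul C)
    (fun P => ?_)
  rw [Finset.mul_sum]
  exact Finset.sum_le_sum (fun j _ => h _)

lemma phiSq_le_opNorm (z : H →L[ℂ] H) : phiSq hA η z ≤ (‖z‖ * ‖η‖) ^ 2 := by
  refine le_of_tendsto' (tendsto_phiSq hA η z) (fun P => ?_)
  rw [mul_pow, ← P.norm_sq_sum η, Finset.mul_sum]
  refine Finset.sum_le_sum (fun j _ => ?_)
  rw [← mul_pow]
  exact pow_le_pow_left₀ (norm_nonneg _) (z.le_opNorm _) 2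

lemma phiSq_add_le (z w : H →L[ℂ] H) :
    phiSq hA η (z + w) ≤ 2 * phiSq hA η z + 2 * phiSq hA η w := by
  refine le_of_tendsto_of_tendsto' (tendsto_phiSq hA η _)
    (((tendsto_phiSq hA η z).const_mul 2).add ((tendsto_phiSq hA η w).const_mul 2)) (fun P => ?_)
  rw [Finset.mul_sum, Finset.mul_sum, ← Finset.sum_add_distrib]
  refine Finset.sum_le_sum (fun j _ => ?_)
  have h := norm_add_le (z (P.e j η)) (w (P.e j η))
  have h' : ‖(z + w) (P.e j η)‖ ≤ ‖z (P.e j η)‖ + ‖w (P.e j η)‖ := h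
  calc ‖(z + w) (P.e j η)‖ ^ 2 ≤ (‖z (P.e j η)‖ + ‖w (P.e j η)‖) ^ 2 :=
        pow_le_pow_left₀ (norm_nonneg _) h' 2
    _ ≤ _ := add_sq_le.trans (le_of_eq (by ring))

lemma phiSq_smul (c : ℂ) (z : H →L[ℂ] H) : phiSq hA η (c • z) = ‖c‖ ^ 2 * phiSq hA η z := by
  refine tendsto_nhds_unique (tendsto_phiSq hA η _) ?_
  refine ((tendsto_phiSq hA η z).const_mul _).congr (fun P => ?_)
  rw [Finset.mul_sum]
  simp [norm_smul, mul_pow]

lemma phi_star (y : H →L[ℂ] H) : phi hA η (star y) = (starRingEnd ℂ) (phi hA η y) := by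
  refine tendsto_nhds_unique (tendsto_phi hA η _) ?_
  refine ((Complex.continuous_conj.tendsto _).comp (tendsto_phi hA η y)).congr (fun P => ?_)
  simp only [Function.comp_apply, map_sum, inner_conj_symm]
  refine Finset.sum_congr rfl (fun j _ => ?_)
  rw [ContinuousLinearMap.star_eq_adjoint, ContinuousLinearMap.adjoint_inner_right]

lemma phi_central {a : H →L[ℂ] H} (ha : a ∈ A) (y : H →L[ℂ] H) :
    phi hA η (a * y) = phi hA η (y * a) := by
  change ⟪η, plim hA (a * y) η⟫ = ⟪η, plim hA (y * a) η⟫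
  rw [plim_mul_left hA ha, plim_mul_right hA ha, plim_comm hA y ha]

lemma phi_re_nonneg {T : H →L[ℂ] H} (hT : ∀ v, 0 ≤ (⟪v, T v⟫).re) : 0 ≤ (phi hA η T).re :=
  ge_of_tendsto' ((Complex.continuous_re.tendsto _).comp (tendsto_phi hA η T)) (fun P => by
    simp only [Function.comp_apply, Complex.re_sum]
    exact Finset.sum_nonneg (fun j _ => hT _))

lemma phi_mono {S T : H →L[ℂ] H} (h : ∀ v, (⟪v, S v⟫).re ≤ (⟪v, T v⟫).re) :
    (phi hA η S).re ≤ (phi hA η T).re := by
  have := phi_re_nonneg hA η (T := T - S) (fun v => by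
    rw [sub_apply, inner_sub_right, Complex.sub_re]; linarith [h v])
  rw [map_sub, Complex.sub_re] at this
  linarith

lemma phiSq_expand (z w : H →L[ℂ] H) (t : ℂ) :
    phiSq hA η (z - t • w) = phiSq hA η z - 2 * (t * phi hA η (star z * w)).re
      + ‖t‖ ^ 2 * phiSq hA η w := by
  have e : star (z - t • w) * (z - t • w) = star z * z - t • (star z * w)
      - (starRingEnd ℂ) t • star (star z * w) + ((starRingEnd ℂ) t * t) • (star w * w) := by
    rw [star_sub, star_smul, star_mul, star_star]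
    simp only [mul_sub, sub_mul, mul_smul_comm, smul_mul_assoc, smul_smul, starRingEnd_apply,
      smul_sub, mul_comm (star t) t]
    abel
  unfold phiSq
  rw [e, map_add, map_sub, map_sub, map_smul, map_smul, map_smul, phi_star, smul_eq_mul,
    smul_eq_mul, smul_eq_mul, ← map_mul, Complex.add_re, Complex.sub_re, Complex.sub_re,
    Complex.conj_re, Complex.conj_mul', ← Complex.ofReal_pow, Complex.re_ofReal_mul]
  ring

lemma phiSq_mul_unitary {u : H →L[ℂ] H} (hu : u ∈ A) (hus : star u = u) (huu : u * u = 1)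
    (z : H →L[ℂ] H) : phiSq hA η (z * u) = phiSq hA η z := by
  unfold phiSq
  have h1 : star (z * u) * (z * u) = u * (star z * z * u) := by
    rw [star_mul, hus]; simp only [mul_assoc]
  rw [h1, phi_central hA η hu, mul_assoc _ u u, huu, mul_one]

end Vale.Agent.P078.General
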