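import Vale.Agent.P078.Limit
import Vale.Agent.P078.General.Basic

/-!
# Ultrafilter limit of pinchings over a MASA of a von Neumann algebra
-/

namespace Vale.Agent.P078.General

open ComplexInnerProductSpace
open Filter Topology
open scoped CStarAlgebra

universe u

variable {H : Type u} [NormedAddCommGroup H] [InnerProductSpace ℂ H] [CompleteSpace H]
variable {M : VonNeumannAlgebra H} {A : StarSubalgebra ℂ (H →L[ℂ] H)} (hA : IsMASAIn M A)
include hA

lemma IsMASAIn.mem_M {a : H →L[ℂ] H} (ha : a ∈ A) : a ∈ M := by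
  have : a ∈ (A : Set (H →L[ℂ] H)) := ha
  rw [hA] at this
  exact this.2

lemma IsMASAIn.comm {a b : H →L[ℂ] H} (ha : a ∈ A) (hb : b ∈ A) : a * b = b * a := by
  have : b ∈ (A : Set (H →L[ℂ] H)) := hb
  rw [hA] at this
  exact this.1 a ha

lemma IsMASAIn.mem_of_commute {y : H →L[ℂ] H} (h : ∀ a ∈ A, a * y = y * a)
    (hy : ∀ m ∈ Set.centralizer (M : Set (H →L[ℂ] H)), m * y = y * m) : y ∈ A := by
  have : y ∈ Set.centralizer (A : Set (H →L[ℂ] H)) ∩ (M : Set (H →L[ℂ] H)) :=
    ⟨fun a ha => h a ha, mem_vna_of_commute hy⟩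
  rw [← hA] at this
  exact this

lemma IsMASAIn.proj_mem (K : Submodule ℂ H) [K.HasOrthogonalProjection]
    (h : ∀ a ∈ A, ∀ k ∈ K, a k ∈ K)
    (hK : ∀ m ∈ Set.centralizer (M : Set (H →L[ℂ] H)), ∀ k ∈ K, m k ∈ K) :
    K.starProjection ∈ A := by
  refine hA.mem_of_commute (fun a ha => starProjection_commute K a (h a ha) (h _ (star_mem ha)))
    (fun m hm => starProjection_commute K m (hK m hm) (hK _ (Set.star_mem_centralizer' ?_ hm)))
  exact fun z hz => star_mem hz

lemma IsMASAIn.mul_proj {p q : H →L[ℂ] H} (hp : IsStarProjection p) (hq : IsStarProjection q)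
    (hpA : p ∈ A) (hqA : q ∈ A) : IsStarProjection (p * q) := by
  refine ⟨?_, ?_⟩
  · change p * q * (p * q) = p * q
    calc p * q * (p * q) = p * (q * p) * q := by simp only [mul_assoc]
      _ = p * (p * q) * q := by rw [hA.comm hqA hpA]
      _ = p * p * (q * q) := by simp only [mul_assoc]
      _ = p * q := by rw [hp.isIdempotentElem, hq.isIdempotentElem]
  · change star (p * q) = p * q
    rw [star_mul, hp.isSelfAdjoint.star_eq, hq.isSelfAdjoint.star_eq, hA.comm hqA hpA]

lemma IsMASAIn.exists_join (P Q : Part A) : ∃ R : Part A, P ≤ R ∧ Q ≤ R := by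
  let f : Fin (P.n * Q.n) → (H →L[ℂ] H) := fun k =>
    P.e (finProdFinEquiv.symm k).1 * Q.e (finProdFinEquiv.symm k).2
  refine ⟨⟨P.n * Q.n, f, fun k => mul_mem (P.mem _) (Q.mem _),
    fun k => hA.mul_proj (P.proj _) (Q.proj _) (P.mem _) (Q.mem _), ?_, ?_⟩,
    fun k => ⟨(finProdFinEquiv.symm k).1, ?_⟩, fun k => ⟨(finProdFinEquiv.symm k).2, ?_⟩⟩
  · intro k l hkl
    set a := finProdFinEquiv.symm k with ha
    set b := finProdFinEquiv.symm l with hb
    have hab : a ≠ b := fun h => hkl (finProdFinEquiv.symm.injective (ha ▸ hb ▸ h))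
    change P.e a.1 * Q.e a.2 * (P.e b.1 * Q.e b.2) = 0
    have e : P.e a.1 * Q.e a.2 * (P.e b.1 * Q.e b.2)
        = (P.e a.1 * P.e b.1) * (Q.e a.2 * Q.e b.2) := by
      simp only [mul_assoc]
      rw [← mul_assoc (Q.e a.2), hA.comm (Q.mem a.2) (P.mem b.1), mul_assoc]
    rw [e]
    by_cases h1 : a.1 = b.1
    · rw [Q.orth _ _ (fun h2 => hab (Prod.ext h1 h2)), mul_zero]
    · rw [P.orth _ _ h1, zero_mul]
  · rw [← Equiv.sum_comp finProdFinEquiv]
    simp only [f, Equiv.symm_apply_apply, Fintype.sum_prod_type, ← Finset.mul_sum]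
    simp [Q.total, P.total]
  · change P.e _ * (P.e _ * Q.e _) = P.e _ * Q.e _
    rw [← mul_assoc, (P.proj _).isIdempotentElem]
  · change Q.e _ * (P.e _ * Q.e _) = P.e _ * Q.e _
    rw [hA.comm (P.mem _) (Q.mem _), ← mul_assoc, (Q.proj _).isIdempotentElem]

lemma IsMASAIn.directed : IsDirectedOrder (Part A) := ⟨fun P Q => hA.exists_join P Q⟩

/-- A fixed ultrafilter of partitions along refinement. -/
noncomputable def uf : Ultrafilter (Part A) :=
  haveI := hA.directed
  Ultrafilter.of atTop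

lemma uf_le : (uf hA : Filter (Part A)) ≤ atTop :=
  haveI := hA.directed
  Ultrafilter.of_le _

lemma eventually_finer (P0 : Part A) : ∀ᶠ P in (uf hA : Filter (Part A)), P0 ≤ P :=
  haveI := hA.directed
  uf_le hA (mem_atTop P0)

lemma exists_plim_scalar (x : H →L[ℂ] H) (v w : H) :
    ∃ L : ℂ, Tendsto (fun P : Part A => ⟪P.pinch x v, w⟫) (uf hA) (𝓝 L) := by
  obtain ⟨L, -, hL⟩ := (isCompact_closedBall (0 : ℂ) (‖x‖ * ‖v‖ * ‖w‖)).ultrafilter_le_nhds
    ((uf hA).map (fun P => ⟪P.pinch x v, w⟫)) (by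
      rw [Ultrafilter.coe_map, le_principal_iff]
      exact Filter.mem_map.2 (Filter.univ_mem' (fun P => by
        simpa using P.inner_pinch_le x v w)))
  exact ⟨L, hL⟩

/-- The weak limit of the pinchings of `x`. -/
noncomputable def plim (x : H →L[ℂ] H) : H →L[ℂ] H :=
  let L := fun v w => (exists_plim_scalar hA x v w).choose
  have hL : ∀ v w, Tendsto (fun P : Part A => ⟪P.pinch x v, w⟫) (uf hA) (𝓝 (L v w)) :=
    fun v w => (exists_plim_scalar hA x v w).choose_spec
  let B0 : H →ₗ⋆[ℂ] H →ₗ[ℂ] ℂ :=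
    LinearMap.mk₂'ₛₗ (starRingEnd ℂ) (RingHom.id ℂ) L
      (fun v v' w => tendsto_nhds_unique (hL _ _) (((hL v w).add (hL v' w)).congr
        (fun P => by rw [map_add, inner_add_left])))
      (fun c v w => tendsto_nhds_unique (hL _ _) (((hL v w).const_smul ((starRingEnd ℂ) c)).congr
        (fun P => by rw [map_smul, inner_smul_left, smul_eq_mul])))
      (fun v w w' => tendsto_nhds_unique (hL _ _) (((hL v w).add (hL v w')).congr
        (fun P => by rw [inner_add_right])))
      (fun c v w => tendsto_nhds_unique (hL _ _) (((hL v w).const_smul c).congr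
        (fun P => by rw [inner_smul_right, smul_eq_mul])))
  InnerProductSpace.continuousLinearMapOfBilin (B0.mkContinuous₂ ‖x‖
    (fun v w => le_of_tendsto' (hL v w).norm (fun P => P.inner_pinch_le x v w)))

lemma tendsto_plim (x : H →L[ℂ] H) (v w : H) :
    Tendsto (fun P : Part A => ⟪P.pinch x v, w⟫) (uf hA) (𝓝 ⟪plim hA x v, w⟫) := by
  have : ⟪plim hA x v, w⟫ = (exists_plim_scalar hA x v w).choose :=
    InnerProductSpace.continuousLinearMapOfBilin_apply _ v w
  rw [this]
  exact (exists_plim_scalar hA x v w).choose_spec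

lemma plim_eq {x y : H →L[ℂ] H}
    (h : ∀ v w, Tendsto (fun P : Part A => ⟪P.pinch x v, w⟫) (uf hA) (𝓝 ⟪y v, w⟫)) :
    plim hA x = y :=
  ContinuousLinearMap.ext (fun v => ext_inner_right ℂ
    (fun w => tendsto_nhds_unique (tendsto_plim hA x v w) (h v w)))

omit hA in
lemma pinch_add (P : Part A) (x y : H →L[ℂ] H) : P.pinch (x + y) = P.pinch x + P.pinch y := by
  simp [Part.pinch, mul_add, add_mul, Finset.sum_add_distrib]

omit hA in
lemma pinch_smul (P : Part A) (c : ℂ) (x : H →L[ℂ] H) : P.pinch (c • x) = c • P.pinch x := by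
  simp [Part.pinch, Finset.smul_sum]

lemma plim_add (x y : H →L[ℂ] H) : plim hA (x + y) = plim hA x + plim hA y :=
  plim_eq hA (fun v w => by
    simpa [pinch_add, inner_add_left] using (tendsto_plim hA x v w).add (tendsto_plim hA y v w))

lemma plim_smul (c : ℂ) (x : H →L[ℂ] H) : plim hA (c • x) = c • plim hA x :=
  plim_eq hA (fun v w => by
    simpa [pinch_smul, inner_smul_left] using
      (tendsto_plim hA x v w).mul_const ((starRingEnd ℂ) c))

/-- `plim` as a linear map. -/
noncomputable def plimₗ : (H →L[ℂ] H) →ₗ[ℂ] (H →L[ℂ] H) where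
  toFun := plim hA
  map_add' := plim_add hA
  map_smul' := plim_smul hA

lemma pinch_mul_left {a : H →L[ℂ] H} (ha : a ∈ A) (P : Part A) (x : H →L[ℂ] H) :
    P.pinch (a * x) = a * P.pinch x := by
  simp only [Part.pinch, Finset.mul_sum, ← mul_assoc]
  exact Finset.sum_congr rfl (fun j _ => by rw [hA.comm (P.mem j) ha])

lemma pinch_mul_right {b : H →L[ℂ] H} (hb : b ∈ A) (P : Part A) (x : H →L[ℂ] H) :
    P.pinch (x * b) = P.pinch x * b := by
  simp only [Part.pinch, Finset.sum_mul, mul_assoc]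
  exact Finset.sum_congr rfl (fun j _ => by rw [hA.comm hb (P.mem j)])

lemma pinch_of_mem {a : H →L[ℂ] H} (ha : a ∈ A) (P : Part A) : P.pinch a = a := by
  have : P.pinch 1 = 1 := by
    simp [Part.pinch, (P.proj _).isIdempotentElem.eq, P.total]
  conv_lhs => rw [← mul_one a]
  rw [pinch_mul_left hA ha, this, mul_one]

lemma plim_mul_left {a : H →L[ℂ] H} (ha : a ∈ A) (x : H →L[ℂ] H) :
    plim hA (a * x) = a * plim hA x :=
  plim_eq hA (fun v w => by
    simp only [pinch_mul_left hA ha]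
    simp only [mul_apply_eq_comp, ← ContinuousLinearMap.adjoint_inner_right a]
    exact tendsto_plim hA x v _)

lemma plim_mul_right {b : H →L[ℂ] H} (hb : b ∈ A) (x : H →L[ℂ] H) :
    plim hA (x * b) = plim hA x * b :=
  plim_eq hA (fun v w => by
    simp only [pinch_mul_right hA hb]
    exact tendsto_plim hA x (b v) w)

lemma plim_of_mem {a : H →L[ℂ] H} (ha : a ∈ A) : plim hA a = a :=
  plim_eq hA (fun v w => by simp only [pinch_of_mem hA ha]; exact tendsto_const_nhds)

lemma plim_norm_le (x : H →L[ℂ] H) : ‖plim hA x‖ ≤ ‖x‖ := by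
  refine ContinuousLinearMap.opNorm_le_of_re_inner_le (norm_nonneg _) (fun v w hv hw => ?_)
  refine (Complex.re_le_norm _).trans ?_
  refine le_of_tendsto' (tendsto_plim hA x v w).norm (fun P => ?_)
  simpa [hv, hw] using P.inner_pinch_le x v w

lemma plim_isSelfAdjoint {x : H →L[ℂ] H} (hx : IsSelfAdjoint x) :
    IsSelfAdjoint (plim hA x) := by
  rw [ContinuousLinearMap.isSelfAdjoint_iff_isSymmetric]
  intro v w
  refine tendsto_nhds_unique (l := (uf hA : Filter (Part A))) (tendsto_plim hA x v w) ?_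
  have h2 : Tendsto (fun P : Part A => (starRingEnd ℂ) ⟪P.pinch x w, v⟫) (uf hA)
      (𝓝 ((starRingEnd ℂ) ⟪plim hA x w, v⟫)) :=
    (Complex.continuous_conj.tendsto _).comp (tendsto_plim hA x w v)
  rw [inner_conj_symm] at h2
  refine h2.congr (fun P => ?_)
  rw [inner_conj_symm, sa_inner (P.pinch_isSelfAdjoint hx)]

/-- `P.pinch x` commutes with the pieces of coarser partitions. -/
lemma pinch_comm_piece {P0 P : Part A} (h : P0 ≤ P) (l : Fin P0.n) (x : H →L[ℂ] H) :
    P0.e l * P.pinch x = P.pinch x * P0.e l := by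
  simp only [Part.pinch, Finset.mul_sum, Finset.sum_mul]
  refine Finset.sum_congr rfl (fun j _ => ?_)
  obtain ⟨i, hi⟩ := h j
  have hsc : P0.e l * P.e j = P.e j ∨ P0.e l * P.e j = 0 := by
    by_cases hli : l = i
    · exact Or.inl (hli ▸ hi)
    · exact Or.inr (by rw [← hi, ← mul_assoc, P0.orth _ _ hli, zero_mul])
  rw [← mul_assoc, ← mul_assoc, mul_assoc (P.e j * x), hA.comm (P.mem j) (P0.mem l)]
  rcases hsc with h | h <;> simp [h]

omit hA in
/-- The two-piece partition of a projection of `A`. -/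
noncomputable def twoPart {p : H →L[ℂ] H} (hpA : p ∈ A) (hp : IsStarProjection p) : Part A :=
  ⟨2, ![p, 1 - p],
    fun i => by fin_cases i <;> simp [hpA, sub_mem (one_mem A) hpA],
    fun i => by fin_cases i <;> simp [hp, hp.one_sub],
    fun i j hij => by
      fin_cases i <;> fin_cases j <;> simp_all [mul_sub, sub_mul, hp.isIdempotentElem.eq],
    by simp [Fin.sum_univ_two]⟩

lemma plim_comm_proj (x : H →L[ℂ] H) {p : H →L[ℂ] H} (hpA : p ∈ A) (hp : IsStarProjection p) :
    p * plim hA x = plim hA x * p := by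
  refine ContinuousLinearMap.ext (fun v => ext_inner_right ℂ (fun w => ?_))
  refine tendsto_nhds_unique (l := (uf hA : Filter (Part A)))
    (f := fun P : Part A => ⟪p (P.pinch x v), w⟫) ?_ ?_
  · change Tendsto _ _ (𝓝 ⟪p (plim hA x v), w⟫)
    simp only [sa_inner hp.isSelfAdjoint]
    exact tendsto_plim hA x v (p w)
  · change Tendsto _ _ (𝓝 ⟪plim hA x (p v), w⟫)
    refine (tendsto_plim hA x (p v) w).congr' ?_
    filter_upwards [eventually_finer hA (twoPart hpA hp)] with P hP
    exact congrArg (fun u => ⟪u, w⟫)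
      (DFunLike.congr_fun (pinch_comm_piece hA hP (0 : Fin 2) x) v).symm

omit hA in
lemma pinch_mem {x : H →L[ℂ] H} (hA : IsMASAIn M A) (hx : x ∈ M) (P : Part A) :
    P.pinch x ∈ M :=
  sum_mem (fun j _ => mul_mem (mul_mem (hA.mem_M (P.mem j)) hx) (hA.mem_M (P.mem j)))

lemma plim_comm_centralizer {x : H →L[ℂ] H} (hx : x ∈ M) {m : H →L[ℂ] H}
    (hm : m ∈ Set.centralizer (M : Set (H →L[ℂ] H))) : m * plim hA x = plim hA x * m := by
  refine ContinuousLinearMap.ext (fun v => ext_inner_right ℂ (fun w => ?_))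
  refine tendsto_nhds_unique (l := (uf hA : Filter (Part A)))
    (f := fun P : Part A => ⟪m (P.pinch x v), w⟫) ?_ ?_
  · change Tendsto _ _ (𝓝 ⟪m (plim hA x v), w⟫)
    simp only [← ContinuousLinearMap.adjoint_inner_right m]
    exact tendsto_plim hA x v _
  · change Tendsto _ _ (𝓝 ⟪plim hA x (m v), w⟫)
    refine (tendsto_plim hA x (m v) w).congr (fun P => ?_)
    exact congrArg (fun u => ⟪u, w⟫)
      (DFunLike.congr_fun (commute_of_mem_centralizer (pinch_mem hA hx P) hm) v).symm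

lemma IsMASAIn.halving (b : H →L[ℂ] H) (R : ℝ) (hbA : b ∈ A) (hb : IsSelfAdjoint b)
    (hR : ‖b‖ ≤ R) :
    ∃ b1 e : H →L[ℂ] H, e ∈ A ∧ IsStarProjection e ∧ b1 ∈ A ∧ IsSelfAdjoint b1 ∧ ‖b1‖ ≤ R / 2 ∧
      b1 = b - (R / 2 : ℝ) • (e - (1 - e)) := by
  have hR0 : 0 ≤ R := (norm_nonneg b).trans hR
  obtain ⟨bp, bm, hsplit, hmp, hcom, hbpn, hbmn⟩ := cfc_split b hb R hR
  have hposA : bp ∈ A := hA.mem_of_commute
    (fun a ha => ((hcom a (hA.comm hbA ha)).eq).symm)
    (fun m hm => ((hcom m (commute_of_mem_centralizer (hA.mem_M hbA) hm).symm).eq).symm)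
  let K : Submodule ℂ H := bp.range.topologicalClosure
  have : CompleteSpace K := Submodule.topologicalClosure.completeSpace _
  have hinv : ∀ y, y * bp = bp * y → ∀ k ∈ K, y k ∈ K := by
    intro y hy k hk
    have hmaps : Set.MapsTo y (bp.range : Set H) (bp.range : Set H) := by
      rintro _ ⟨u, rfl⟩
      exact ⟨y u, (DFunLike.congr_fun hy u).symm⟩
    exact (hmaps.closure y.continuous) hk
  set e := K.starProjection with he'
  have heA : e ∈ A := hA.proj_mem K (fun a ha => hinv a (hA.comm ha hposA))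
    (fun m hm => hinv m (commute_of_mem_centralizer (hA.mem_M hposA) hm))
  have he : IsStarProjection e := isStarProjection_starProjection
  have hebp : e * bp = bp := ContinuousLinearMap.ext (fun v =>
    Submodule.starProjection_eq_self_iff.2 (bp.range.le_topologicalClosure ⟨v, rfl⟩))
  have hbme : bm * e = 0 := by
    refine ContinuousLinearMap.ext (fun v => ?_)
    have hsub : (bp.range : Set H) ⊆ {k : H | bm k = 0} := by
      rintro _ ⟨u, rfl⟩
      exact DFunLike.congr_fun hmp u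
    exact (isClosed_eq bm.continuous continuous_const).closure_subset_iff.2 hsub
      (K.starProjection_apply_mem v)
  have hbpe : bp * e = bp := (hA.comm hposA heA).trans hebp
  have hb1A : b - (R / 2 : ℝ) • (e - (1 - e)) ∈ A := by
    have h1 : ((R / 2 : ℝ) : ℂ) • (e - (1 - e)) ∈ A :=
      A.toSubalgebra.smul_mem (sub_mem heA (sub_mem (one_mem A) heA)) _
    rw [Complex.coe_smul] at h1
    exact sub_mem hbA h1
  have hb1s : IsSelfAdjoint (b - (R / 2 : ℝ) • (e - (1 - e))) :=
    hb.sub (IsSelfAdjoint.smul (IsSelfAdjoint.all (R / 2 : ℝ))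
      (he.isSelfAdjoint.sub ((IsSelfAdjoint.one _).sub he.isSelfAdjoint)))
  refine ⟨_, e, heA, he, hb1A, hb1s, ?_, rfl⟩
  generalize hb1 : b - (R / 2 : ℝ) • (e - (1 - e)) = b1
  rw [hb1] at hb1A
  have hexp : b1 = (bp - (R / 2 : ℝ) • (1 : H →L[ℂ] H)) * e
      - (bm - (R / 2 : ℝ) • (1 : H →L[ℂ] H)) * (1 - e) := by
    rw [← hb1, hsplit, sub_mul, sub_mul, smul_mul_assoc, smul_mul_assoc, one_mul, one_mul,
      mul_sub, mul_one, hbme, hbpe, sub_zero, smul_sub]
    abel
  exact block_norm he (hA.comm heA hb1A) hexp (by linarith) hbpn hbmn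

lemma IsMASAIn.comm_of_comm_proj {y : H →L[ℂ] H}
    (hy : ∀ p ∈ A, IsStarProjection p → p * y = y * p) : ∀ a ∈ A, a * y = y * a := by
  have step : ∀ (n : ℕ) (b : H →L[ℂ] H) (R : ℝ), b ∈ A → IsSelfAdjoint b → ‖b‖ ≤ R →
      ‖b * y - y * b‖ ≤ 2 * ‖y‖ * R / 2 ^ n := by
    intro n
    induction n with
    | zero =>
      intro b R _ _ hR
      have h1 : ‖b * y - y * b‖ ≤ ‖b‖ * ‖y‖ + ‖y‖ * ‖b‖ :=
        (norm_sub_le _ _).trans (add_le_add (norm_mul_le _ _) (norm_mul_le _ _))
      have h2 : ‖b‖ * ‖y‖ ≤ R * ‖y‖ := mul_le_mul_of_nonneg_right hR (norm_nonneg y)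
      rw [pow_zero, div_one]
      linarith
    | succ n ih =>
      intro b R hbA hb hR
      obtain ⟨b1, e, heA, he, hb1A, hb1s, hnb, hb1⟩ := hA.halving b R hbA hb hR
      have hey := hy e heA he
      have hd : b * y - y * b = b1 * y - y * b1 := by
        simp only [hb1, sub_mul, mul_sub, smul_mul_assoc, mul_smul_comm, one_mul, mul_one, hey]
        abel
      rw [hd]
      calc ‖b1 * y - y * b1‖ ≤ 2 * ‖y‖ * (R / 2) / 2 ^ n := ih b1 (R / 2) hb1A hb1s hnb
        _ = 2 * ‖y‖ * R / 2 ^ (n + 1) := by rw [pow_succ]; ring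
  have hsa : ∀ b ∈ A, IsSelfAdjoint b → b * y = y * b := by
    intro b hbA hb
    rw [← sub_eq_zero, ← norm_eq_zero]
    refine le_antisymm ?_ (norm_nonneg _)
    refine ge_of_tendsto (x := Filter.atTop)
      (f := fun n : ℕ => 2 * ‖y‖ * ‖b‖ / 2 ^ n) ?_
      (Filter.Eventually.of_forall (fun n => step n b ‖b‖ hbA hb le_rfl))
    exact tendsto_const_nhds.div_atTop (tendsto_pow_atTop_atTop_of_one_lt one_lt_two)
  intro a ha
  have h1 : a + star a ∈ A := add_mem ha (star_mem ha)
  have h2 : Complex.I • (a - star a) ∈ A :=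
    A.toSubalgebra.smul_mem (sub_mem ha (star_mem ha) : a - star a ∈ A) _
  have e1 := hsa _ h1 (IsSelfAdjoint.add_star_self a)
  have e2 := hsa _ h2 (by
    simp [IsSelfAdjoint, star_smul, Complex.conj_I, sub_eq_add_neg, add_comm])
  rw [smul_mul_assoc, mul_smul_comm] at e2
  have e3 := smul_right_injective (H →L[ℂ] H) Complex.I_ne_zero e2
  rw [sub_mul, mul_sub] at e3
  rw [add_mul, mul_add] at e1
  have e4 : (2 : ℂ) • (a * y) = (2 : ℂ) • (y * a) := by
    rw [two_smul, two_smul]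
    calc a * y + a * y = (a * y + star a * y) + (a * y - star a * y) := by abel
      _ = (y * a + y * star a) + (y * a - y * star a) := by rw [e1, e3]
      _ = y * a + y * a := by abel
  exact smul_right_injective (H →L[ℂ] H) (by norm_num : (2 : ℂ) ≠ 0) e4

lemma plim_comm (x : H →L[ℂ] H) {a : H →L[ℂ] H} (ha : a ∈ A) :
    a * plim hA x = plim hA x * a :=
  hA.comm_of_comm_proj (fun _ hpA hp => plim_comm_proj hA x hpA hp) a ha

lemma plim_mem {x : H →L[ℂ] H} (hx : x ∈ M) : plim hA x ∈ A :=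
  hA.mem_of_commute (fun _ ha => plim_comm hA x ha) (fun _ hm => plim_comm_centralizer hA hx hm)

end Vale.Agent.P078.General
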