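import Vale.Agent.P078.General.Residual

/-!
# Functional-analytic tools: dominated functionals and weak limits
-/

namespace Vale.Agent.P078.General

open ComplexInnerProductSpace
open Filter Topology

universe u

variable {H : Type u} [NormedAddCommGroup H] [InnerProductSpace ℂ H] [CompleteSpace H]
variable {M : VonNeumannAlgebra H}

lemma smul_mem_vna (c : ℂ) {T : H →L[ℂ] H} (hT : T ∈ M) : c • T ∈ M :=
  mem_vna_of_commute (fun y hy => by
    rw [mul_smul_comm, smul_mul_assoc, commute_of_mem_centralizer hT hy])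

/-- `M` as a submodule. -/
def vnaSubmodule (M : VonNeumannAlgebra H) : Submodule ℂ (H →L[ℂ] H) where
  carrier := M
  add_mem' := fun ha hb => add_mem ha hb
  zero_mem' := zero_mem M
  smul_mem' := fun c _ hT => smul_mem_vna c hT

/-- A functional on `M` bounded by finitely many vector seminorms is a vector functional. -/
lemma exists_vectors_of_bound (F : (H →L[ℂ] H) →ₗ[ℂ] ℂ) {n : ℕ} (v : Fin n → H) {C : ℝ}
    (hC : 0 ≤ C) (hF : ∀ x ∈ M, ‖F x‖ ^ 2 ≤ C * ∑ i, ‖x (v i)‖ ^ 2) :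
    ∃ w : Fin n → H, ∀ x ∈ M, F x = ∑ i, ⟪w i, x (v i)⟫ := by
  let L : vnaSubmodule M →ₗ[ℂ] PiLp 2 (fun _ : Fin n => H) :=
    { toFun := fun x => WithLp.toLp 2 (fun i => (x : H →L[ℂ] H) (v i))
      map_add' := fun x y => by ext i; simp
      map_smul' := fun c x => by ext i; simp }
  let F' : vnaSubmodule M →ₗ[ℂ] ℂ := F.comp (vnaSubmodule M).subtype
  have hb : ∀ x, ‖F' x‖ ≤ Real.sqrt C * ‖L x‖ := fun x => by
    refine (sq_le_sq₀ (norm_nonneg _) (by positivity)).1 ?_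
    rw [mul_pow, Real.sq_sqrt hC, PiLp.norm_sq_eq_of_L2]
    exact hF _ x.2
  have hker : L.ker ≤ F'.ker := fun x hx => by
    rw [LinearMap.mem_ker] at hx ⊢
    have h := hb x
    rw [hx, norm_zero, mul_zero] at h
    exact norm_le_zero_iff.1 h
  let G : L.range →ₗ[ℂ] ℂ := (L.ker.liftQ F' hker).comp L.quotKerEquivRange.symm.toLinearMap
  have hG : ∀ x, G ⟨L x, L.mem_range_self x⟩ = F' x := fun x => by
    change L.ker.liftQ F' hker (L.quotKerEquivRange.symm ⟨L x, L.mem_range_self x⟩) = F' x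
    rw [L.quotKerEquivRange_symm_apply_image x (L.mem_range_self x), Submodule.mkQ_apply,
      Submodule.liftQ_apply]
  have hGb : ∀ z, ‖G z‖ ≤ Real.sqrt C * ‖z‖ := by
    rintro ⟨_, x, rfl⟩
    rw [hG]
    exact hb x
  obtain ⟨g, hg, -⟩ := exists_extension_norm_eq L.range (G.mkContinuous _ hGb)
  refine ⟨fun i => ((InnerProductSpace.toDual ℂ _).symm g) i, fun x hx => ?_⟩
  have h1 := hg ⟨L ⟨x, hx⟩, L.mem_range_self ⟨x, hx⟩⟩
  rw [LinearMap.mkContinuous_apply, hG] at h1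
  change F' ⟨x, hx⟩ = _
  rw [← h1, ← InnerProductSpace.toDual_symm_apply, PiLp.inner_apply]
  rfl

/-- A weak limit of a bounded sequence. -/
lemma exists_weak_limit (b : ℕ → (H →L[ℂ] H)) {R : ℝ} (hb : ∀ n, ‖b n‖ ≤ R) :
    ∃ T : H →L[ℂ] H, ∀ v w, Tendsto (fun n => ⟪b n v, w⟫)
      (hyperfilter ℕ : Filter ℕ) (𝓝 ⟪T v, w⟫) := by
  have hbd : ∀ n v w, ‖⟪b n v, w⟫‖ ≤ R * ‖v‖ * ‖w‖ := fun n v w =>
    (norm_inner_le_norm _ _).trans
      (mul_le_mul_of_nonneg_right (norm_sum_apply_le (hb n) v) (norm_nonneg w))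
  have hex : ∀ v w, ∃ L : ℂ,
      Tendsto (fun n => ⟪b n v, w⟫) (hyperfilter ℕ : Filter ℕ) (𝓝 L) := by
    intro v w
    obtain ⟨L, -, hL⟩ := (isCompact_closedBall (0 : ℂ) (R * ‖v‖ * ‖w‖)).ultrafilter_le_nhds
      ((hyperfilter ℕ).map (fun n => ⟪b n v, w⟫)) (by
        rw [Ultrafilter.coe_map, le_principal_iff]
        exact Filter.mem_map.2 (Filter.univ_mem' (fun n => by simpa using hbd n v w)))
    exact ⟨L, hL⟩
  choose L hL using hex
  let B0 : H →ₗ⋆[ℂ] H →ₗ[ℂ] ℂ :=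
    LinearMap.mk₂'ₛₗ (starRingEnd ℂ) (RingHom.id ℂ) L
      (fun v v' w => tendsto_nhds_unique (hL _ _) (((hL v w).add (hL v' w)).congr
        (fun n => by rw [map_add, inner_add_left])))
      (fun c v w => tendsto_nhds_unique (hL _ _) (((hL v w).const_smul ((starRingEnd ℂ) c)).congr
        (fun n => by rw [map_smul, inner_smul_left, smul_eq_mul])))
      (fun v w w' => tendsto_nhds_unique (hL _ _) (((hL v w).add (hL v w')).congr
        (fun n => by rw [inner_add_right])))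
      (fun c v w => tendsto_nhds_unique (hL _ _) (((hL v w).const_smul c).congr
        (fun n => by rw [inner_smul_right, smul_eq_mul])))
  have hLb : ∀ v w, ‖L v w‖ ≤ R * ‖v‖ * ‖w‖ := fun v w =>
    le_of_tendsto' (hL v w).norm (fun n => hbd n v w)
  refine ⟨InnerProductSpace.continuousLinearMapOfBilin (B0.mkContinuous₂ R hLb), fun v w => ?_⟩
  rw [InnerProductSpace.continuousLinearMapOfBilin_apply]
  exact hL v w

lemma weak_limit_mem {b : ℕ → (H →L[ℂ] H)} (hb : ∀ n, b n ∈ M) {T : H →L[ℂ] H}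
    (hT : ∀ v w, Tendsto (fun n => ⟪b n v, w⟫) (hyperfilter ℕ : Filter ℕ) (𝓝 ⟪T v, w⟫)) :
    T ∈ M := by
  refine mem_vna_of_commute (fun m hm => ContinuousLinearMap.ext (fun v =>
    ext_inner_right ℂ (fun w => ?_)))
  refine tendsto_nhds_unique (l := (hyperfilter ℕ : Filter ℕ))
    (f := fun n => ⟪m (b n v), w⟫) ?_ ?_
  · change Tendsto _ _ (𝓝 ⟪m (T v), w⟫)
    simp only [← ContinuousLinearMap.adjoint_inner_right m]
    exact hT v _
  · change Tendsto _ _ (𝓝 ⟪T (m v), w⟫)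
    refine (hT (m v) w).congr (fun n => ?_)
    exact congrArg (fun u => ⟪u, w⟫)
      (DFunLike.congr_fun (commute_of_mem_centralizer (hb n) hm) v).symm

lemma weak_limit_sa {b : ℕ → (H →L[ℂ] H)} (hb : ∀ n, IsSelfAdjoint (b n)) {T : H →L[ℂ] H}
    (hT : ∀ v w, Tendsto (fun n => ⟪b n v, w⟫) (hyperfilter ℕ : Filter ℕ) (𝓝 ⟪T v, w⟫)) :
    IsSelfAdjoint T := by
  rw [ContinuousLinearMap.isSelfAdjoint_iff_isSymmetric]
  intro v w
  refine tendsto_nhds_unique (l := (hyperfilter ℕ : Filter ℕ)) (hT v w) ?_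
  have h2 := (Complex.continuous_conj.tendsto _).comp (hT w v)
  rw [inner_conj_symm] at h2
  refine h2.congr (fun n => ?_)
  simp only [Function.comp_apply]
  rw [inner_conj_symm, sa_inner (hb n)]

end Vale.Agent.P078.General
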