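import Vale.Agent.P078.General.Form

/-!
# The central normal part of a central form
-/

namespace Vale.Agent.P078.General

open ComplexInnerProductSpace
open Filter Topology

universe u

variable {H : Type u} [NormedAddCommGroup H] [InnerProductSpace ℂ H] [CompleteSpace H]
variable {M : VonNeumannAlgebra H} {A : StarSubalgebra ℂ (H →L[ℂ] H)} (hA : IsMASAIn M A) (η : H)

/-- Elements right multiplication by which makes the form dominated by vector functionals. -/
def Dom (b : H →L[ℂ] H) : Prop :=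
  b ∈ M ∧ ∃ (n : ℕ) (v : Fin n → H), ∀ y ∈ M, phiSq hA η (y * b) ≤ ∑ i, ‖y (v i)‖ ^ 2

variable {hA η}

lemma Dom.zero : Dom hA η (0 : H →L[ℂ] H) :=
  ⟨zero_mem M, 0, Fin.elim0, fun y _ => by simp [phiSq]⟩

lemma Dom.add {b c : H →L[ℂ] H} (hb : Dom hA η b) (hc : Dom hA η c) : Dom hA η (b + c) := by
  obtain ⟨hbM, n, v, hv⟩ := hb
  obtain ⟨hcM, m, w, hw⟩ := hc
  refine ⟨add_mem hbM hcM, n + m, fun i => (Real.sqrt 2 : ℂ) • Fin.append v w i, fun y hy => ?_⟩
  rw [mul_add, Fin.sum_univ_add]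
  simp only [map_smul, norm_smul, mul_pow, Complex.norm_real, Real.norm_eq_abs, sq_abs,
    Real.sq_sqrt zero_le_two, Fin.append_left, Fin.append_right, ← Finset.mul_sum]
  linarith [phiSq_add_le hA η (y * b) (y * c), hv y hy, hw y hy]

lemma Dom.smul {b : H →L[ℂ] H} (c : ℂ) (hb : Dom hA η b) : Dom hA η (c • b) := by
  obtain ⟨hbM, n, v, hv⟩ := hb
  refine ⟨smul_mem_vna c hbM, n, fun i => c • v i, fun y hy => ?_⟩
  rw [mul_smul_comm, phiSq_smul]
  simp only [map_smul, norm_smul, mul_pow, ← Finset.mul_sum]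
  exact mul_le_mul_of_nonneg_left (hv y hy) (sq_nonneg _)

lemma Dom.sub {b c : H →L[ℂ] H} (hb : Dom hA η b) (hc : Dom hA η c) : Dom hA η (b - c) := by
  rw [sub_eq_add_neg, ← neg_one_smul ℂ c]
  exact hb.add (hc.smul _)

lemma Dom.mul_left {b z : H →L[ℂ] H} (hz : z ∈ M) (hb : Dom hA η b) : Dom hA η (z * b) := by
  obtain ⟨hbM, n, v, hv⟩ := hb
  refine ⟨mul_mem hz hbM, n, fun i => z (v i), fun y hy => ?_⟩
  rw [← mul_assoc]
  exact hv _ (mul_mem hy hz)

lemma Dom.conj {b u : H →L[ℂ] H} (hu : u ∈ A) (hus : star u = u) (huu : u * u = 1)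
    (hb : Dom hA η b) : Dom hA η (u * b * u) := by
  obtain ⟨hbM, n, v, hv⟩ := hb
  refine ⟨mul_mem (mul_mem (hA.mem_M hu) hbM) (hA.mem_M hu), n, fun i => u (v i), fun y hy => ?_⟩
  rw [← mul_assoc, ← mul_assoc, phiSq_mul_unitary hA η hu hus huu]
  exact hv _ (mul_mem hy (hA.mem_M hu))

variable (hA η)

/-- `b` nearly minimises the distance from `1`. -/
def NearMin (b : H →L[ℂ] H) (δ : ℝ) : Prop :=
  Dom hA η b ∧ ∀ c, Dom hA η c → phiSq hA η (1 - b) ≤ phiSq hA η (1 - c) + δ

variable {hA η}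

lemma NearMin.orth {b : H →L[ℂ] H} {δ : ℝ} (hb : NearMin hA η b δ) {d : H →L[ℂ] H}
    (hd : Dom hA η d) : ‖phi hA η (star (1 - b) * d)‖ ^ 2 ≤ δ * phiSq hA η d := by
  have hcs := phi_cs hA η (1 - b) d
  set z := phi hA η (star (1 - b) * d) with hz
  rcases (phiSq_nonneg hA η d).eq_or_lt with h | h
  · rw [← h, mul_zero] at hcs ⊢
    exact hcs
  · have h1 := hb.2 _ (hb.1.add (hd.smul ((starRingEnd ℂ) z / (phiSq hA η d : ℂ))))
    rw [← sub_sub, phiSq_expand, ← hz] at h1
    have e1 : ((starRingEnd ℂ) z / (phiSq hA η d : ℂ) * z).re = ‖z‖ ^ 2 / phiSq hA η d := by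
      rw [div_mul_eq_mul_div, Complex.conj_mul', ← Complex.ofReal_pow, ← Complex.ofReal_div,
        Complex.ofReal_re]
    have e2 : ‖(starRingEnd ℂ) z / (phiSq hA η d : ℂ)‖ ^ 2 * phiSq hA η d
        = ‖z‖ ^ 2 / phiSq hA η d := by
      rw [norm_div, RCLike.norm_conj, Complex.norm_real, Real.norm_of_nonneg h.le]
      field_simp
    rw [e1, e2] at h1
    rw [← div_le_iff₀ h]
    linarith

lemma NearMin.close {b c : H →L[ℂ] H} {δ : ℝ} (hb : NearMin hA η b δ) (hc : NearMin hA η c δ) :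
    phiSq hA η (b - c) ≤ 4 * δ := by
  have hd : Dom hA η (b - c) := hb.1.sub hc.1
  have h1 := hb.orth hd
  have h2 := hc.orth hd
  have e : star (b - c) * (b - c) = star (1 - c) * (b - c) - star (1 - b) * (b - c) := by
    rw [← sub_mul, ← star_sub, sub_sub_sub_cancel_left]
  set Q := phiSq hA η (b - c) with hQ
  have hQ' : Q ≤ ‖phi hA η (star (1 - c) * (b - c))‖ + ‖phi hA η (star (1 - b) * (b - c))‖ := by
    rw [hQ, phiSq, e, map_sub]
    exact (Complex.re_le_norm _).trans (norm_sub_le _ _)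
  set s := ‖phi hA η (star (1 - c) * (b - c))‖
  set t := ‖phi hA η (star (1 - b) * (b - c))‖
  rcases (phiSq_nonneg hA η (b - c)).eq_or_lt with h | h
  · rw [← hQ] at h
    have hδ : 0 ≤ δ := by linarith [hb.2 b hb.1]
    rw [← h]; positivity
  · have h3 : Q ^ 2 ≤ (s + t) ^ 2 := pow_le_pow_left₀ h.le hQ' 2
    have h4 : (s + t) ^ 2 ≤ 2 * (s ^ 2 + t ^ 2) := add_sq_le
    rw [← hQ] at h
    refine le_of_mul_le_mul_right ?_ h
    linarith

lemma NearMin.phi_close {b c : H →L[ℂ] H} {δ : ℝ} (hδ : 0 ≤ δ) (hb : NearMin hA η b δ)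
    (hc : NearMin hA η c δ) (y : H →L[ℂ] H) :
    ‖phi hA η (y * b) - phi hA η (y * c)‖ ≤ 2 * Real.sqrt δ * ‖y‖ * ‖η‖ := by
  refine (sq_le_sq₀ (norm_nonneg _) (by positivity)).1 ?_
  rw [← map_sub, ← mul_sub]
  have h1 := phi_cs hA η (star y) (b - c)
  rw [star_star] at h1
  refine h1.trans ((mul_le_mul (phiSq_le_opNorm hA η _) (hb.close hc) (phiSq_nonneg hA η _)
    (sq_nonneg _)).trans (le_of_eq ?_))
  rw [norm_star]
  simp only [mul_pow, Real.sq_sqrt hδ]
  ring

lemma NearMin.mono {b : H →L[ℂ] H} {δ δ' : ℝ} (hb : NearMin hA η b δ) (h : δ ≤ δ') :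
    NearMin hA η b δ' :=
  ⟨hb.1, fun c hc => (hb.2 c hc).trans (by linarith)⟩

lemma NearMin.conj {b u : H →L[ℂ] H} {δ : ℝ} (hu : u ∈ A) (hus : star u = u) (huu : u * u = 1)
    (hb : NearMin hA η b δ) : NearMin hA η (u * b * u) δ := by
  refine ⟨hb.1.conj hu hus huu, fun c hc => ?_⟩
  have e : 1 - u * b * u = u * (1 - b) * u := by
    rw [mul_sub, sub_mul, mul_one, huu]
  rw [e, phiSq_mul_unitary hA η hu hus huu]
  have e2 : phiSq hA η (u * (1 - b)) = phiSq hA η (1 - b) := by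
    unfold phiSq
    rw [star_mul, hus, mul_assoc, ← mul_assoc u u, huu, one_mul]
  rw [e2]
  exact hb.2 c hc

variable (hA η)

lemma exists_nearMin {δ : ℝ} (hδ : 0 < δ) : ∃ b, NearMin hA η b δ := by
  set S : Set ℝ := {s | ∃ b, Dom hA η b ∧ phiSq hA η (1 - b) = s}
  have hne : S.Nonempty := ⟨_, 0, Dom.zero, rfl⟩
  have hbdd : BddBelow S := ⟨0, fun s ⟨b, _, hs⟩ => hs ▸ phiSq_nonneg hA η _⟩
  obtain ⟨s, ⟨b, hb, rfl⟩, hs⟩ := Real.lt_sInf_add_pos hne hδ
  exact ⟨b, hb, fun c hc => hs.le.trans (by linarith [csInf_le hbdd ⟨c, hc, rfl⟩])⟩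

lemma proj_symmetry {p : H →L[ℂ] H} (hpA : p ∈ A) (hp : IsStarProjection p) :
    p + p - 1 ∈ A ∧ star (p + p - 1) = p + p - 1 ∧ (p + p - 1) * (p + p - 1) = 1 := by
  refine ⟨sub_mem (add_mem hpA hpA) (one_mem A), by simp [hp.isSelfAdjoint.star_eq], ?_⟩
  simp only [sub_mul, mul_sub, add_mul, mul_add, hp.isIdempotentElem.eq, mul_one, one_mul]
  abel

variable {η}

/-- Functionals commuting with the projections of `A` commute with `A`. -/
lemma central_of_central_proj (hA : IsMASAIn M A) (ψ : (H →L[ℂ] H) →ₗ[ℂ] ℂ) {C : ℝ} (hψ : ∀ y, ‖ψ y‖ ≤ C * ‖y‖)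
    (hC : 0 ≤ C) (y : H →L[ℂ] H)
    (hy : ∀ p ∈ A, IsStarProjection p → ψ (p * y) = ψ (y * p)) :
    ∀ a ∈ A, ψ (a * y) = ψ (y * a) := by
  have step : ∀ (n : ℕ) (b : H →L[ℂ] H) (R : ℝ), b ∈ A → IsSelfAdjoint b → ‖b‖ ≤ R →
      ‖ψ (b * y - y * b)‖ ≤ C * (2 * ‖y‖) * R / 2 ^ n := by
    intro n
    induction n with
    | zero =>
      intro b R _ _ hR
      refine (hψ _).trans ?_
      rw [pow_zero, div_one, mul_assoc]
      refine mul_le_mul_of_nonneg_left ((norm_sub_le _ _).trans ?_) hC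
      have h1 : ‖b * y‖ ≤ R * ‖y‖ :=
        (norm_mul_le _ _).trans (mul_le_mul_of_nonneg_right hR (norm_nonneg _))
      have h2 : ‖y * b‖ ≤ ‖y‖ * R :=
        (norm_mul_le _ _).trans (mul_le_mul_of_nonneg_left hR (norm_nonneg _))
      linarith
    | succ n ih =>
      intro b R hbA hb hR
      obtain ⟨b1, e, heA, he, hb1A, hb1s, hnb, hb1⟩ := hA.halving b R hbA hb hR
      have hd : ψ (b * y - y * b) = ψ (b1 * y - y * b1) := by
        have e1 : b = b1 + ((R / 2 : ℝ) : ℂ) • (e - (1 - e)) := by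
          rw [hb1, Complex.coe_smul, sub_add_cancel]
        conv_lhs => rw [e1]
        simp only [add_mul, mul_add, smul_mul_assoc, mul_smul_comm, sub_mul, mul_sub, one_mul,
          mul_one, map_sub, map_add, map_smul, hy e heA he]
        ring
      rw [hd]
      calc ‖ψ (b1 * y - y * b1)‖ ≤ C * (2 * ‖y‖) * (R / 2) / 2 ^ n := ih b1 (R / 2) hb1A hb1s hnb
        _ = C * (2 * ‖y‖) * R / 2 ^ (n + 1) := by rw [pow_succ]; ring
  have hsa : ∀ b ∈ A, IsSelfAdjoint b → ψ (b * y) = ψ (y * b) := by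
    intro b hbA hb
    rw [← sub_eq_zero, ← map_sub, ← norm_eq_zero]
    refine le_antisymm ?_ (norm_nonneg _)
    refine ge_of_tendsto (x := Filter.atTop)
      (f := fun n : ℕ => C * (2 * ‖y‖) * ‖b‖ / 2 ^ n) ?_
      (Filter.Eventually.of_forall (fun n => step n b ‖b‖ hbA hb le_rfl))
    exact tendsto_const_nhds.div_atTop (tendsto_pow_atTop_atTop_of_one_lt one_lt_two)
  intro a ha
  have h1 : a + star a ∈ A := add_mem ha (star_mem ha)
  have h2 : Complex.I • (a - star a) ∈ A :=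
    A.toSubalgebra.smul_mem (sub_mem ha (star_mem ha) : a - star a ∈ A) _
  have e1 := hsa _ h1 (IsSelfAdjoint.add_star_self a)
  have e2 := hsa _ h2 (by
    simp [IsSelfAdjoint, star_smul, Complex.conj_I, sub_eq_add_neg, add_comm])
  simp only [smul_mul_assoc, mul_smul_comm, map_smul, smul_eq_mul] at e2
  have e3 := mul_left_cancel₀ Complex.I_ne_zero e2
  simp only [sub_mul, mul_sub, map_sub] at e3
  simp only [add_mul, mul_add, map_add] at e1
  linear_combination (1 / 2 : ℂ) * e1 + (1 / 2 : ℂ) * e3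

variable (η)

/-- The central normal part of `phi`; it agrees with `phi` on dominated self-adjoint elements. -/
lemma exists_normal_part :
    ∃ ψ, IsCentralNormal M A ψ ∧
      (∀ T ∈ M, IsSelfAdjoint T → (∀ v, 0 ≤ (⟪T v, v⟫).re) → 0 ≤ (ψ T).re) ∧
      ∀ g, Dom hA η g → IsSelfAdjoint g → ψ g = phi hA η g := by
  classical
  set δ : ℕ → ℝ := fun n => 1 / ((n : ℝ) + 1) with hδdef
  have hδ0 : ∀ n, 0 < δ n := fun n => by positivity
  have hδa : ∀ {n m : ℕ}, n ≤ m → δ m ≤ δ n := fun {n m} h => Nat.one_div_le_one_div h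
  have hδt : Tendsto δ atTop (𝓝 0) := tendsto_one_div_add_atTop_nhds_zero_nat
  choose b hb using fun n => exists_nearMin hA η (hδ0 n)
  set B : ℕ → ℝ := fun n => 2 * Real.sqrt (δ n) with hB
  have hBt : Tendsto B atTop (𝓝 0) := by
    simpa [B] using ((Real.continuous_sqrt.tendsto 0).comp hδt).const_mul 2
  have hBt' : ∀ c : ℝ, Tendsto (fun n => B n * c) atTop (𝓝 0) := fun c => by
    simpa using hBt.mul_const c
  have hdist : ∀ y (n m : ℕ), n ≤ m →
      ‖phi hA η (y * b n) - phi hA η (y * b m)‖ ≤ B n * (‖y‖ * ‖η‖) := fun y n m h =>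
    ((hb n).phi_close (hδ0 n).le ((hb m).mono (hδa h)) y).trans (le_of_eq (by rw [hB]; ring))
  have hlim : ∀ y, ∃ L, Tendsto (fun n => phi hA η (y * b n)) atTop (𝓝 L) := fun y => by
    refine cauchySeq_tendsto_of_complete
      (cauchySeq_of_le_tendsto_0 (fun n => 2 * (B n * (‖y‖ * ‖η‖))) (fun n m N hn hm => ?_) ?_)
    · rw [dist_eq_norm]
      refine (norm_sub_le_norm_sub_add_norm_sub _ (phi hA η (y * b N)) _).trans ?_
      rw [norm_sub_rev (phi hA η (y * b n))]
      linarith [hdist y N n hn, hdist y N m hm]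
    · simpa using (hBt' (‖y‖ * ‖η‖)).const_mul 2
  choose L hL using hlim
  let ψ : (H →L[ℂ] H) →ₗ[ℂ] ℂ :=
    { toFun := L
      map_add' := fun x y => tendsto_nhds_unique (hL _) (((hL x).add (hL y)).congr
        (fun n => by rw [add_mul, map_add]))
      map_smul' := fun c x => tendsto_nhds_unique (hL _) (((hL x).const_smul c).congr
        (fun n => by rw [smul_mul_assoc, map_smul])) }
  have hψ : ∀ y n, ‖ψ y - phi hA η (y * b n)‖ ≤ B n * (‖y‖ * ‖η‖) := fun y n => by
    refine le_of_tendsto ((hL y).sub_const _).norm ?_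
    filter_upwards [eventually_ge_atTop n] with m hm
    rw [norm_sub_rev]
    exact hdist y n m hm
  -- a bound for the minimising sequence
  set K : ℝ := 2 * phiSq hA η 1 + 2 * (phiSq hA η 1 + 1) with hK
  have hbK : ∀ n, phiSq hA η (b n) ≤ K := fun n => by
    have e : b n = 1 + (-1 : ℂ) • (1 - b n) := by rw [neg_one_smul]; abel
    rw [e]
    refine (phiSq_add_le hA η _ _).trans ?_
    rw [phiSq_smul, norm_neg, norm_one, one_pow, one_mul]
    have h := (hb n).2 0 Dom.zero
    rw [sub_zero] at h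
    have : δ n ≤ 1 := by simpa [δ] using hδa (Nat.zero_le n)
    rw [hK]
    linarith
  have hK0 : 0 ≤ K := (phiSq_nonneg hA η _).trans (hbK 0)
  set Cψ : ℝ := ‖η‖ * Real.sqrt K + B 0 * ‖η‖ with hCψ
  have hB0 : 0 ≤ B 0 := by positivity
  have hψb : ∀ y, ‖ψ y‖ ≤ Cψ * ‖y‖ := fun y => by
    have h1 : ‖phi hA η (y * b 0)‖ ≤ ‖η‖ * Real.sqrt K * ‖y‖ := by
      refine (sq_le_sq₀ (norm_nonneg _) (by positivity)).1 ?_
      have h := phi_cs hA η (star y) (b 0)
      rw [star_star] at h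
      refine h.trans ((mul_le_mul (phiSq_le_opNorm hA η _) (hbK 0) (phiSq_nonneg hA η _)
        (sq_nonneg _)).trans (le_of_eq ?_))
      rw [norm_star]
      simp only [mul_pow, Real.sq_sqrt hK0]
      ring
    have h2 := hψ y 0
    have h3 := norm_le_norm_add_norm_sub' (ψ y) (phi hA η (y * b 0))
    calc ‖ψ y‖ ≤ ‖η‖ * Real.sqrt K * ‖y‖ + B 0 * (‖y‖ * ‖η‖) := by linarith
      _ = Cψ * ‖y‖ := by rw [hCψ]; ring
  -- invariance under symmetries in `A`
  have hsym : ∀ u ∈ A, star u = u → u * u = 1 → ∀ y, ψ (u * y * u) = ψ y := by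
    intro u hu hus huu y
    refine tendsto_nhds_unique (hL (u * y * u)) ?_
    have h0 : Tendsto (fun n => phi hA η (y * (u * b n * u)) - phi hA η (y * b n)) atTop (𝓝 0) :=
      squeeze_zero_norm (fun n => (((hb n).conj hu hus huu).phi_close (hδ0 n).le (hb n) y).trans
        (le_of_eq (by rw [hB]; ring))) (hBt' (‖y‖ * ‖η‖))
    have h1 := h0.add (hL y)
    rw [zero_add] at h1
    refine h1.congr (fun n => ?_)
    rw [sub_add_cancel, mul_assoc u y u, mul_assoc u (y * u), phi_central hA η hu]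
    simp only [mul_assoc]
  have hproj : ∀ y, ∀ p ∈ A, IsStarProjection p → ψ (p * y) = ψ (y * p) := by
    intro y p hpA hp
    obtain ⟨hu, hus, huu⟩ := proj_symmetry hpA hp
    have h := hsym _ hu hus huu (y * (p + p - 1))
    rw [mul_assoc, mul_assoc y, huu, mul_one] at h
    simp only [sub_mul, mul_sub, add_mul, mul_add, one_mul, mul_one, map_sub, map_add] at h
    linear_combination (1 / 2 : ℂ) * h
  have hpos : ∀ T ∈ M, IsSelfAdjoint T → (∀ v, 0 ≤ (⟪T v, v⟫).re) →
      0 ≤ (ψ T).re ∧ (ψ T).im = 0 := by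
    intro T hTM hT hTp
    have h0 : Tendsto (fun n => phi hA η (T * b n) - phi hA η (star (b n) * (T * b n))) atTop
        (𝓝 0) := by
      refine squeeze_zero_norm (a := fun n => Real.sqrt (δ n * (‖T‖ ^ 2 * K))) (fun n => ?_) ?_
      · rw [← map_sub]
        have e : T * b n - star (b n) * (T * b n) = star (1 - b n) * (T * b n) := by
          rw [star_sub, star_one, sub_mul, one_mul]
        rw [e]
        refine Real.le_sqrt_of_sq_le ?_
        refine ((hb n).orth ((hb n).1.mul_left hTM)).trans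
          (mul_le_mul_of_nonneg_left ?_ (hδ0 n).le)
        refine (phiSq_le hA η (w := b n) (fun v => ?_)).trans
          (mul_le_mul_of_nonneg_left (hbK n) (sq_nonneg _))
        rw [← mul_pow]
        exact pow_le_pow_left₀ (norm_nonneg _) (T.le_opNorm _) 2
      · simpa [Function.comp_def] using (Real.continuous_sqrt.tendsto 0).comp
          (by simpa using hδt.mul_const (‖T‖ ^ 2 * K))
    have h1 : Tendsto (fun n => phi hA η (star (b n) * (T * b n))) atTop (𝓝 (ψ T)) := by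
      have := (hL T).sub h0
      rw [sub_zero] at this
      exact this.congr (fun n => by abel)
    constructor
    · refine ge_of_tendsto' ((Complex.continuous_re.tendsto _).comp h1) (fun n => ?_)
      refine phi_re_nonneg hA η (fun v => ?_)
      change 0 ≤ (⟪v, star (b n) (T (b n v))⟫).re
      rw [ContinuousLinearMap.star_eq_adjoint, ContinuousLinearMap.adjoint_inner_right,
        ← sa_inner hT]
      exact hTp _
    · refine tendsto_nhds_unique ((Complex.continuous_im.tendsto _).comp h1) ?_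
      refine tendsto_const_nhds.congr (fun n => ?_)
      refine (Complex.conj_eq_iff_im.1 ?_).symm
      rw [← phi_star, star_mul, star_mul, star_star, hT.star_eq, mul_assoc]
  refine ⟨ψ, ⟨fun x hx => ?_, fun a ha x _ => ?_, fun ε hε => ?_⟩,
    fun T hT hTs hTp => (hpos T hT hTs hTp).1, fun g hg hgs => ?_⟩
  · obtain ⟨h1, h2⟩ := hpos (star x * x) (mul_mem (star_mem hx) hx)
      (IsSelfAdjoint.star_mul_self x) (fun v => by
        change 0 ≤ (⟪star x (x v), v⟫).re
        rw [ContinuousLinearMap.star_eq_adjoint, ContinuousLinearMap.adjoint_inner_left,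
          re_inner_self]
        positivity)
    open ComplexOrder in exact Complex.nonneg_iff.2 ⟨h1, h2.symm⟩
  · exact central_of_central_proj hA ψ hψb
      (by rw [hCψ]; positivity) x (hproj x) a ha
  · obtain ⟨n, hn⟩ := ((hBt' ‖η‖).eventually (eventually_le_nhds hε)).exists
    obtain ⟨m, v, hv⟩ := (hb n).1.2
    obtain ⟨w, hw⟩ := exists_vectors_of_bound (M := M)
      ((phi hA η).comp (LinearMap.mulRight ℂ (b n))) v (C := phiSq hA η 1) (phiSq_nonneg hA η 1)
      (fun x hx => by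
        have h := phi_cs hA η 1 (x * b n)
        rw [star_one, one_mul] at h
        exact h.trans (mul_le_mul_of_nonneg_left (hv x hx) (phiSq_nonneg hA η 1)))
    refine ⟨m, v, w, fun x hx => ?_⟩
    rw [← hw x hx]
    refine (hψ x n).trans ?_
    calc B n * (‖x‖ * ‖η‖) = B n * ‖η‖ * ‖x‖ := by ring
      _ ≤ ε * ‖x‖ := mul_le_mul_of_nonneg_right hn (norm_nonneg _)
  · have h0 : Tendsto (fun n => phi hA η g - (starRingEnd ℂ) (phi hA η (g * b n))) atTop (𝓝 0) := by
      refine squeeze_zero_norm (a := fun n => Real.sqrt (δ n * phiSq hA η g)) (fun n => ?_) ?_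
      · rw [← phi_star, ← map_sub]
        have e : g - star (g * b n) = star (1 - b n) * g := by
          rw [star_mul, hgs.star_eq, star_sub, star_one, sub_mul, one_mul]
        rw [e]
        exact Real.le_sqrt_of_sq_le ((hb n).orth hg)
      · simpa [Function.comp_def] using (Real.continuous_sqrt.tendsto 0).comp
          (by simpa using hδt.mul_const (phiSq hA η g))
    have h1 := tendsto_nhds_unique h0
      (tendsto_const_nhds.sub ((Complex.continuous_conj.tendsto _).comp (hL g)))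
    have hr : (starRingEnd ℂ) (phi hA η g) = phi hA η g := by rw [← phi_star, hgs.star_eq]
    have h2 := congrArg (starRingEnd ℂ) (sub_eq_zero.1 h1.symm)
    rw [Complex.conj_conj, hr] at h2
    exact h2.symm

end Vale.Agent.P078.General
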