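import Vale.Agent.P078.General.Limit

/-!
# The splitting projection and small projections on the null part
-/

namespace Vale.Agent.P078.General

open ComplexInnerProductSpace
open Filter Topology

universe u

variable {H : Type u} [NormedAddCommGroup H] [InnerProductSpace ℂ H] [CompleteSpace H]
variable {M : VonNeumannAlgebra H} {A : StarSubalgebra ℂ (H →L[ℂ] H)} (hA : IsMASAIn M A)

/-- A positive element of `M` whose pinchings tend weakly to zero. -/
structure IsNull (T : H →L[ℂ] H) : Prop where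
  mem : T ∈ M
  sa : IsSelfAdjoint T
  pos : ∀ v, 0 ≤ (⟪T v, v⟫).re
  null : ∀ v, Tendsto (fun P : Part A => (⟪P.pinch T v, v⟫).re) (uf hA) (𝓝 0)

variable {hA}

omit [CompleteSpace H] in
lemma re_inner_self (v : H) : (⟪v, v⟫).re = ‖v‖ ^ 2 := by
  rw [inner_self_eq_norm_sq_to_K]; norm_cast

lemma eq_zero_of_inner_eq_zero {T : H →L[ℂ] H} (hT : IsSelfAdjoint T)
    (hpos : ∀ v, 0 ≤ (⟪T v, v⟫).re) {v : H} (hv : (⟪T v, v⟫).re = 0) : T v = 0 := by
  have key : ∀ t : ℝ, 0 ≤ 2 * t * ‖T v‖ ^ 2 + t ^ 2 * (⟪T (T v), T v⟫).re := fun t => by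
    have h := hpos (v + (t : ℂ) • T v)
    have e : ⟪T (T v), v⟫ = ⟪T v, T v⟫ := sa_inner hT _ _
    rw [map_add, map_smul, inner_add_left, inner_add_right, inner_add_right, inner_smul_left,
      inner_smul_left, inner_smul_right, inner_smul_right, Complex.conj_ofReal, e] at h
    simp only [Complex.add_re, Complex.re_ofReal_mul, hv, re_inner_self] at h
    linarith
  set c := (⟪T (T v), T v⟫).re
  have hc : 0 ≤ c := hpos (T v)
  have h := key (-1 / (c + 1))
  have : 2 * (-1 / (c + 1)) * ‖T v‖ ^ 2 + (-1 / (c + 1)) ^ 2 * c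
      ≤ -(2 * ‖T v‖ ^ 2) / (c + 1) + c / (c + 1) ^ 2 := le_of_eq (by field_simp)
  by_contra hne
  have hn : 0 < ‖T v‖ ^ 2 := by positivity
  have h' := key (-(‖T v‖ ^ 2) / (c * ‖T v‖ ^ 2 + c + 1))
  have hd : 0 < c * ‖T v‖ ^ 2 + c + 1 := by positivity
  have e : 2 * (-(‖T v‖ ^ 2) / (c * ‖T v‖ ^ 2 + c + 1)) * ‖T v‖ ^ 2
      + (-(‖T v‖ ^ 2) / (c * ‖T v‖ ^ 2 + c + 1)) ^ 2 * c
      = -(‖T v‖ ^ 2) ^ 2 * (2 * (c * ‖T v‖ ^ 2 + c + 1) - c) / (c * ‖T v‖ ^ 2 + c + 1) ^ 2 := by
    field_simp; ring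
  rw [e] at h'
  have : -(‖T v‖ ^ 2) ^ 2 * (2 * (c * ‖T v‖ ^ 2 + c + 1) - c)
      / (c * ‖T v‖ ^ 2 + c + 1) ^ 2 < 0 := by
    refine div_neg_of_neg_of_pos ?_ (by positivity)
    nlinarith [mul_nonneg hc hn.le, mul_pos hn hn]
  linarith

lemma pinch_inner_self (P : Part A) (T : H →L[ℂ] H) (v : H) :
    ⟪P.pinch T v, v⟫ = ∑ j, ⟪T (P.e j v), P.e j v⟫ := by
  simp only [Part.pinch, _root_.sum_apply, sum_inner]
  exact Finset.sum_congr rfl (fun j _ => sa_inner (P.proj j).isSelfAdjoint _ _)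

lemma IsNull.zero : IsNull hA (0 : H →L[ℂ] H) :=
  ⟨zero_mem M, IsSelfAdjoint.zero _, fun v => by simp, fun v => by
    simp [Part.pinch, tendsto_const_nhds]⟩

lemma IsNull.add {S T : H →L[ℂ] H} (hS : IsNull hA S) (hT : IsNull hA T) : IsNull hA (S + T) :=
  ⟨add_mem hS.mem hT.mem, hS.sa.add hT.sa, fun v => by
    simpa [inner_add_left] using add_nonneg (hS.pos v) (hT.pos v), fun v => by
    simpa [pinch_add, inner_add_left] using (hS.null v).add (hT.null v)⟩

lemma IsNull.conj {T : H →L[ℂ] H} (hT : IsNull hA T) {a : H →L[ℂ] H} (ha : a ∈ A) :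
    IsNull hA (a * T * star a) := by
  refine ⟨mul_mem (mul_mem (hA.mem_M ha) hT.mem) (hA.mem_M (star_mem ha)),
    by simpa using hT.sa.conjugate a, fun v => ?_, fun v => ?_⟩
  · change 0 ≤ (⟪a (T (star a v)), v⟫).re
    rw [← ContinuousLinearMap.adjoint_inner_right a, ← ContinuousLinearMap.star_eq_adjoint]
    exact hT.pos _
  · refine (hT.null (star a v)).congr (fun P => ?_)
    rw [pinch_mul_right hA (star_mem ha), pinch_mul_left hA ha]
    change _ = (⟪a (P.pinch T (star a v)), v⟫).re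
    rw [← ContinuousLinearMap.adjoint_inner_right a, ← ContinuousLinearMap.star_eq_adjoint]

variable (hA)

/-- The common kernel of the null elements. -/
def nullKer : Submodule ℂ H where
  carrier := {u | ∀ T, IsNull hA T → T u = 0}
  add_mem' := fun {a b} ha hb T hT => by rw [map_add, ha T hT, hb T hT, add_zero]
  zero_mem' := fun T _ => map_zero T
  smul_mem' := fun c a ha T hT => by rw [map_smul, ha T hT, smul_zero]

lemma nullKer_closed : IsClosed (nullKer hA : Set H) := by
  change IsClosed {u : H | ∀ T, IsNull hA T → T u = 0}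
  simp only [Set.ofPred_forall]
  exact isClosed_iInter (fun T => isClosed_iInter (fun _ =>
    isClosed_eq T.continuous continuous_const))

instance : CompleteSpace (nullKer hA) := (nullKer_closed hA).completeSpace_coe

/-- The projection of `A` cutting out the expected part. -/
noncomputable def eProj : H →L[ℂ] H := (nullKer hA).starProjection

lemma eProj_mem : eProj hA ∈ A := by
  refine hA.proj_mem _ (fun a ha u hu T hT => ?_) (fun m hm u hu T hT => ?_)
  · refine eq_zero_of_inner_eq_zero hT.sa hT.pos ?_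
    have h := hu _ (hT.conj (star_mem ha))
    rw [star_star] at h
    change star a (T (a u)) = 0 at h
    have h2 : ⟪star a (T (a u)), u⟫ = ⟪T (a u), a u⟫ := by
      rw [ContinuousLinearMap.star_eq_adjoint, ContinuousLinearMap.adjoint_inner_left]
    rw [← h2, h, inner_zero_left, Complex.zero_re]
  · have := DFunLike.congr_fun (commute_of_mem_centralizer hT.mem hm) u
    change m (T u) = T (m u) at this
    rw [← this, hu T hT, map_zero]

lemma eProj_proj : IsStarProjection (eProj hA) := isStarProjection_starProjection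

lemma IsNull.mul_eProj {T : H →L[ℂ] H} (hT : IsNull hA T) : T * eProj hA = 0 :=
  ContinuousLinearMap.ext (fun v => (nullKer hA).starProjection_apply_mem v T hT)

lemma cut_mem {M : VonNeumannAlgebra H} {T s : H →L[ℂ] H} (hT : T ∈ M)
    (hsc : ∀ y, Commute T y → Commute T (star y) → y * s = s * y) : s ∈ M := by
  refine mem_vna_of_commute (fun y hy => hsc y (commute_of_mem_centralizer hT hy).symm ?_)
  refine (commute_of_mem_centralizer hT (Set.star_mem_centralizer' ?_ hy)).symm
  exact fun z hz => star_mem hz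

lemma exists_null_range_near (F : Finset H) {δ : ℝ} (hδ : 0 < δ) :
    ∃ T, IsNull hA T ∧ ∀ ξ ∈ F, ∃ w, ‖(1 - eProj hA) ξ - T w‖ < δ := by
  classical
  induction F using Finset.induction with
  | empty => exact ⟨0, IsNull.zero, fun ξ hξ => absurd hξ (by simp)⟩
  | insert ξ F _ ih =>
    obtain ⟨T, hT, hTF⟩ := ih
    -- the kernels decrease, so the closures of the ranges increase
    have hsub : ∀ S S', IsNull hA S → IsNull hA S' → ∀ v, (S + S') v = 0 → S v = 0 := by
      intro S S' hS hS' v hv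
      refine eq_zero_of_inner_eq_zero hS.sa hS.pos (le_antisymm ?_ (hS.pos v))
      have : (⟪(S + S') v, v⟫).re = 0 := by simp [hv]
      rw [add_apply, inner_add_left, Complex.add_re] at this
      linarith [hS'.pos v]
    have hcl : ∀ S : H →L[ℂ] H, IsSelfAdjoint S → ∀ y : H, (∀ v, S v = 0 → ⟪v, y⟫ = 0) → ∀ {t : ℝ}, 0 < t →
        ∃ w, ‖y - S w‖ < t := by
      intro S hS y hy t ht
      have hmem : y ∈ S.range.topologicalClosure := by
        have : CompleteSpace S.range.topologicalClosure :=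
          Submodule.topologicalClosure.completeSpace _
        rw [← Submodule.orthogonal_orthogonal S.range.topologicalClosure,
          Submodule.mem_orthogonal]
        intro v hv
        refine hy v ?_
        refine inner_self_eq_zero (𝕜 := ℂ).1 ?_
        rw [sa_inner hS]
        exact Submodule.inner_left_of_mem_orthogonal
          (S.range.le_topologicalClosure ⟨S v, rfl⟩) hv
      obtain ⟨_, ⟨w, rfl⟩, hw⟩ := Metric.mem_closure_iff.1 hmem t ht
      exact ⟨w, by rwa [dist_eq_norm] at hw⟩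
    set y := (1 - eProj hA) ξ with hy
    -- y is orthogonal to the common kernel, so it is approximated from finitely many ranges
    have hyperp : ∀ v, (∀ S, IsNull hA S → S v = 0) → ⟪v, y⟫ = 0 := fun v hv => by
      refine (Submodule.mem_orthogonal _ _).1
        ((nullKer hA).sub_starProjection_mem_orthogonal ξ) v hv
    let R : Submodule ℂ H := ⨆ S : {S // IsNull hA S}, S.1.range
    have hymem : y ∈ R.topologicalClosure := by
      have : CompleteSpace R.topologicalClosure := Submodule.topologicalClosure.completeSpace _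
      rw [← Submodule.orthogonal_orthogonal R.topologicalClosure, Submodule.mem_orthogonal]
      intro v hv
      refine hyperp v (fun S hS => inner_self_eq_zero (𝕜 := ℂ).1 ?_)
      rw [sa_inner hS.sa]
      exact Submodule.inner_left_of_mem_orthogonal (R.le_topologicalClosure
        (Submodule.mem_iSup_of_mem ⟨S, hS⟩ ⟨S v, rfl⟩)) hv
    obtain ⟨z, hz, hzy⟩ := Metric.mem_closure_iff.1 hymem (δ / 2) (by positivity)
    have key : ∀ z ∈ R, ∃ S, IsNull hA S ∧ ∀ v, S v = 0 → ⟪v, z⟫ = 0 := by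
      intro z hz
      induction hz using Submodule.iSup_induction' with
      | mem S z hz =>
        obtain ⟨w, rfl⟩ := hz
        exact ⟨S.1, S.2, fun v hv => by
          change ⟪v, S.1 w⟫ = 0
          rw [← sa_inner S.2.sa, hv, inner_zero_left]⟩
      | zero => exact ⟨0, IsNull.zero, fun v _ => inner_zero_right _⟩
      | add z z' _ _ h h' =>
        obtain ⟨S, hS, h1⟩ := h
        obtain ⟨S', hS', h2⟩ := h'
        refine ⟨S + S', hS.add hS', fun v hv => ?_⟩
        rw [inner_add_right, h1 v (hsub S S' hS hS' v hv),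
          h2 v (hsub S' S hS' hS v (by rwa [add_comm])), add_zero]
    obtain ⟨S, hS, hSz⟩ := key z hz
    refine ⟨S + T, hS.add hT, fun η hη => ?_⟩
    rcases Finset.mem_insert.1 hη with rfl | hη
    · obtain ⟨w, hw⟩ := hcl (S + T) (hS.add hT).sa z
        (fun v hv => hSz v (hsub S T hS hT v hv)) (half_pos hδ)
      refine ⟨w, ?_⟩
      rw [dist_eq_norm] at hzy
      calc ‖y - (S + T) w‖ ≤ ‖y - z‖ + ‖z - (S + T) w‖ := norm_sub_le_norm_sub_add_norm_sub _ _ _
        _ < δ := by linarith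
    · obtain ⟨w, hw⟩ := hTF η hη
      obtain ⟨w', hw'⟩ := hcl (S + T) (hS.add hT).sa (T w)
        (fun v hv => by
          rw [← sa_inner hT.sa, hsub T S hT hS v (by rwa [add_comm]), inner_zero_left])
        (t := δ - ‖(1 - eProj hA) η - T w‖) (by linarith)
      refine ⟨w', ?_⟩
      calc ‖(1 - eProj hA) η - (S + T) w'‖
          ≤ ‖(1 - eProj hA) η - T w‖ + ‖T w - (S + T) w'‖ :=
            norm_sub_le_norm_sub_add_norm_sub _ _ _
        _ < δ := by linarith

lemma exists_null_proj (F : Finset H) {δ : ℝ} (hδ : 0 < δ) :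
    ∃ q, IsStarProjection q ∧ IsNull hA q ∧ (1 - eProj hA) * q = q ∧
      ∀ ξ ∈ F, ‖(1 - eProj hA - q) ξ‖ < δ := by
  classical
  obtain ⟨T, hT, hTF⟩ := exists_null_range_near hA F (half_pos hδ)
  choose w hw using hTF
  set R : ℝ := ∑ ξ ∈ F.attach, ‖w ξ.1 ξ.2‖ with hR
  have hR0 : 0 ≤ R := Finset.sum_nonneg (fun _ _ => norm_nonneg _)
  obtain ⟨s, hs, hsc, hlow, -, hnear⟩ := exists_cut hT.sa hT.pos
    (t := δ / (2 * (R + 1))) (by positivity)
  set t := δ / (2 * (R + 1)) with ht
  have ht0 : 0 < t := by positivity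
  have hse : s * eProj hA = 0 := by
    refine ContinuousLinearMap.ext (fun v => ?_)
    have h0 := hlow (eProj hA v)
    have h1 : T (eProj hA v) = 0 := DFunLike.congr_fun (IsNull.mul_eProj hA hT) v
    rw [h1, inner_zero_left, Complex.zero_re] at h0
    have : ‖s (eProj hA v)‖ ^ 2 = 0 := by nlinarith [sq_nonneg ‖s (eProj hA v)‖]
    simpa using this
  have hes : eProj hA * s = 0 := by
    have := congrArg star hse
    rwa [star_mul, star_zero, hs.isSelfAdjoint.star_eq, (eProj_proj hA).isSelfAdjoint.star_eq]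
      at this
  have hsE : (1 - eProj hA) * s = s := by rw [sub_mul, one_mul, hes, sub_zero]
  refine ⟨s, hs, ⟨cut_mem hT.mem hsc, hs.isSelfAdjoint, fun v => ?_, fun v => ?_⟩, hsE,
    fun ξ hξ => ?_⟩
  · rw [← proj_apply_apply hs, sa_inner hs.isSelfAdjoint, re_inner_self]
    positivity
  · refine squeeze_zero (fun P => ?_) (fun P => ?_)
      (g := fun P : Part A => (⟪P.pinch T v, v⟫).re / t) (by simpa using (hT.null v).div_const t)
    · rw [pinch_inner_self, Complex.re_sum]
      refine Finset.sum_nonneg (fun j _ => ?_)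
      rw [← proj_apply_apply hs, sa_inner hs.isSelfAdjoint, re_inner_self]
      positivity
    · rw [pinch_inner_self, pinch_inner_self, Complex.re_sum, Complex.re_sum, Finset.sum_div]
      refine Finset.sum_le_sum (fun j _ => ?_)
      rw [le_div_iff₀ ht0, ← proj_apply_apply hs, sa_inner hs.isSelfAdjoint, re_inner_self,
        mul_comm]
      exact hlow _
  · have h1 : (1 - eProj hA - s) ξ = (1 - s) ((1 - eProj hA) ξ) := by
      have hsp : s * (1 - eProj hA) = s := by rw [mul_sub, mul_one, hse, sub_zero]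
      change _ = ((1 - s) * (1 - eProj hA)) ξ
      rw [sub_mul 1 s, one_mul, hsp]
    rw [h1]
    have h2 := hw ξ hξ
    have h3 : ‖w ξ hξ‖ ≤ R := Finset.single_le_sum
      (f := fun η : {x // x ∈ F} => ‖w η.1 η.2‖) (fun _ _ => norm_nonneg _)
      (Finset.mem_attach F ⟨ξ, hξ⟩)
    have h4 : t * ‖w ξ hξ‖ < δ / 2 := by
      calc t * ‖w ξ hξ‖ ≤ t * R := mul_le_mul_of_nonneg_left h3 ht0.le
        _ < t * (R + 1) := by linarith
        _ = δ / 2 := by rw [ht]; field_simp
    calc ‖(1 - s) ((1 - eProj hA) ξ)‖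
        = ‖(1 - s) ((1 - eProj hA) ξ - T (w ξ hξ)) + (1 - s) (T (w ξ hξ))‖ := by
          rw [← map_add, sub_add_cancel]
      _ ≤ ‖(1 - eProj hA) ξ - T (w ξ hξ)‖ + t * ‖w ξ hξ‖ :=
          (norm_add_le _ _).trans (add_le_add (proj_norm_le hs.one_sub _) (hnear _))
      _ < δ := by linarith

/-- `q` is small on every piece of every refinement of `P0`. -/
def SmallOn (q : H →L[ℂ] H) (P0 : Part A) (η : ℝ) : Prop :=
  ∀ Q : Part A, P0 ≤ Q → ∀ j w, ‖q (Q.e j w)‖ ^ 2 ≤ η * ‖Q.e j w‖ ^ 2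

lemma exists_small_proj (F : Finset H) {δ : ℝ} (hδ : 0 < δ) {η : ℝ} (hη : 0 < η) :
    ∃ q, IsStarProjection q ∧ q ∈ M ∧ (1 - eProj hA) * q = q ∧
      (∀ ξ ∈ F, ‖(1 - eProj hA - q) ξ‖ < δ) ∧ ∃ P0 : Part A, SmallOn q P0 η := by
  classical
  obtain ⟨q, hq, hqN, hqp, hqF⟩ := exists_null_proj hA F (half_pos hδ)
  have hev : ∀ᶠ P : Part A in (uf hA : Filter (Part A)),
      ∀ ξ ∈ F, (⟪P.pinch q (q ξ), q ξ⟫).re < η ^ 2 * (δ / 2) ^ 2 := by
    refine (Finset.eventually_all F).2 (fun ξ _ => ?_)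
    exact (hqN.null (q ξ)).eventually (eventually_lt_nhds (by positivity))
  obtain ⟨P0, hP0⟩ := hev.exists
  set T : H →L[ℂ] H := ∑ j, q * P0.e j * q * (q * P0.e j * q) with hTdef
  have hbs : ∀ j, IsSelfAdjoint (q * P0.e j * q) := fun j => by
    simpa [hq.isSelfAdjoint.star_eq] using (P0.proj j).isSelfAdjoint.conjugate q
  have hTs : IsSelfAdjoint T := isSelfAdjoint_sum _ (fun j _ => by
    simpa [(hbs j).star_eq] using IsSelfAdjoint.star_mul_self (q * P0.e j * q))
  have hTv : ∀ v, (⟪T v, v⟫).re = ∑ j, ‖q (P0.e j (q v))‖ ^ 2 := fun v => by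
    rw [hTdef, _root_.sum_apply, sum_inner, Complex.re_sum]
    refine Finset.sum_congr rfl (fun j _ => ?_)
    change (⟪(q * P0.e j * q) ((q * P0.e j * q) v), v⟫).re = _
    rw [sa_inner (hbs j), re_inner_self]
    rfl
  have hTM : T ∈ M := sum_mem (fun j _ =>
    mul_mem (mul_mem (mul_mem hqN.mem (hA.mem_M (P0.mem j))) hqN.mem)
      (mul_mem (mul_mem hqN.mem (hA.mem_M (P0.mem j))) hqN.mem))
  obtain ⟨s, hs, hsc, hlow, hup, -⟩ := exists_cut hTs
    (fun v => by rw [hTv]; exact Finset.sum_nonneg (fun _ _ => sq_nonneg _)) (sq_pos_of_pos hη)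
  have hsM : s ∈ M := cut_mem hTM hsc
  have hsq : s * (1 - q) = 0 := by
    refine ContinuousLinearMap.ext (fun v => ?_)
    have h1 : q ((1 - q) v) = 0 := by simp [proj_apply_apply hq]
    change s ((1 - q) v) = 0
    generalize (1 - q) v = u at h1
    have h0 := hlow u
    rw [hTv, h1] at h0
    simp only [map_zero, norm_zero, ne_eq, OfNat.ofNat_ne_zero, not_false_eq_true, zero_pow,
      Finset.sum_const_zero] at h0
    have this : ‖s u‖ ^ 2 = 0 := by
      refine le_antisymm ?_ (sq_nonneg _)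
      by_contra hc
      push Not at hc
      have := mul_pos (sq_pos_of_pos hη) hc
      linarith
    simpa using this
  have hsq' : s * q = s := by
    rw [mul_sub, mul_one, sub_eq_zero] at hsq
    exact hsq.symm
  have hqs : q * s = s := by
    have := congrArg star hsq'
    rwa [star_mul, hq.isSelfAdjoint.star_eq, hs.isSelfAdjoint.star_eq] at this
  have hq' : IsStarProjection (q - s) := by
    refine ⟨?_, hq.isSelfAdjoint.sub hs.isSelfAdjoint⟩
    change (q - s) * (q - s) = q - s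
    rw [mul_sub, sub_mul, sub_mul, hqs, hsq', hq.isIdempotentElem.eq, hs.isIdempotentElem.eq]
    abel
  refine ⟨q - s, hq', sub_mem hqN.mem hsM, ?_, fun ξ hξ => ?_, P0, fun Q hQ j w => ?_⟩
  · have : (1 - eProj hA) * s = s := by rw [← hqs, ← mul_assoc, hqp]
    rw [mul_sub, hqp, this]
  · have h1 := hlow ξ
    rw [hTv] at h1
    have h2 : ∑ j, ‖q (P0.e j (q ξ))‖ ^ 2 = (⟪P0.pinch q (q ξ), q ξ⟫).re := by
      rw [pinch_inner_self, Complex.re_sum]
      refine Finset.sum_congr rfl (fun j _ => ?_)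
      conv_rhs => rw [← proj_apply_apply hq, sa_inner hq.isSelfAdjoint, re_inner_self]
    rw [h2] at h1
    have h3 := hP0 ξ hξ
    have h4 : ‖s ξ‖ ≤ δ / 2 := by
      refine (sq_le_sq₀ (norm_nonneg _) (by positivity)).1 ?_
      exact le_of_mul_le_mul_left (h1.trans h3.le) (sq_pos_of_pos hη)
    have : (1 - eProj hA - (q - s)) ξ = (1 - eProj hA - q) ξ + s ξ := by simp; abel
    rw [this]
    exact (norm_add_le _ _).trans_lt (by linarith [hqF ξ hξ])
  · obtain ⟨i, hi⟩ := hQ j
    have hiw : P0.e i (Q.e j w) = Q.e j w := DFunLike.congr_fun hi w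
    set u := Q.e j w with hu
    set z := (q - s) u with hz
    have hsz : s z = 0 := by
      change (s * (q - s)) u = 0
      rw [mul_sub, hsq', hs.isIdempotentElem.eq, sub_self]; rfl
    have hqz : q z = z := by
      change (q * (q - s)) u = (q - s) u
      rw [mul_sub, hq.isIdempotentElem.eq, hqs]
    have h1 := hup z hsz
    rw [hTv, hqz] at h1
    have h2 : ‖q (P0.e i z)‖ ^ 2 ≤ (η * ‖z‖) ^ 2 := by
      rw [mul_pow]
      exact (Finset.single_le_sum (f := fun j => ‖q (P0.e j z)‖ ^ 2)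
        (fun _ _ => sq_nonneg _) (Finset.mem_univ i)).trans h1
    have h3 := (sq_le_sq₀ (norm_nonneg _) (by positivity)).1 h2
    have h4 : ‖P0.e i z‖ ^ 2 ≤ η * ‖z‖ ^ 2 := by
      have e1 : ‖P0.e i z‖ ^ 2 = (⟪q (P0.e i z), z⟫).re := by
        rw [sa_inner hq.isSelfAdjoint, hqz, proj_inner_apply (P0.proj i), re_inner_self]
      rw [e1]
      refine (Complex.re_le_norm _).trans ((norm_inner_le_norm _ _).trans ?_)
      calc ‖q (P0.e i z)‖ * ‖z‖ ≤ η * ‖z‖ * ‖z‖ :=
            mul_le_mul_of_nonneg_right h3 (norm_nonneg _)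
        _ = η * ‖z‖ ^ 2 := by ring
    have h5 : ‖z‖ ^ 2 = (⟪u, P0.e i z⟫).re := by
      rw [← sa_inner (P0.proj i).isSelfAdjoint, hiw, ← inner_conj_symm, Complex.conj_re, hz,
        proj_inner_apply hq', re_inner_self]
    have h6 : ‖z‖ ^ 2 ≤ ‖u‖ * ‖P0.e i z‖ := by
      rw [h5]; exact (Complex.re_le_norm _).trans (norm_inner_le_norm _ _)
    rcases eq_or_ne z 0 with hz0 | hz0
    · rw [hz0]; simp; positivity
    have hzp : 0 < ‖z‖ ^ 2 := by positivity
    have h7 : (‖z‖ ^ 2) ^ 2 ≤ ‖u‖ ^ 2 * (η * ‖z‖ ^ 2) :=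
      calc (‖z‖ ^ 2) ^ 2 ≤ (‖u‖ * ‖P0.e i z‖) ^ 2 := pow_le_pow_left₀ (sq_nonneg _) h6 2
        _ = ‖u‖ ^ 2 * ‖P0.e i z‖ ^ 2 := by ring
        _ ≤ _ := mul_le_mul_of_nonneg_left h4 (sq_nonneg _)
    refine le_of_mul_le_mul_right ?_ hzp
    linarith

end Vale.Agent.P078.General
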